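import Vale.Agent.P150.Beta1.PassTwo.Cutoff
import Vale.Agent.P150.Beta1.Local.Ising

/-!
# Averages over the components of the localisation as planted averages
-/

namespace Vale.Agent.P150.Beta1.PassTwo

open MeasureTheory ProbabilityTheory Finset Function Real
open Local (wgt fld p0)

variable {ι : Type*} [Fintype ι] [DecidableEq ι] {J : ι → ι → ℝ} {u : ℝ}

lemma tilt_eq_shiftW (J : ι → ι → ℝ) (hu : 0 ≤ u) (g : ι → ℝ) (x : ι → Bool) :
    Local.tilt (p0 J) spins u g x = p0 J x * shiftW (plant u x) g := by
  rw [Local.tilt, shiftW, sqn_plant hu, Local.dotk_spins]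
  have e : lin (plant u x) g = √u * Local.dotk g (spins x) := by
    simp only [lin, plant, Local.dotk, mul_sum]
    exact sum_congr rfl fun i _ => by ring
  rw [e]

/-- The mixture of components seen as planted fields. -/
theorem integral_wgt_mean (J : ι → ι → ℝ) (hu : 0 ≤ u) (Φ : (ι → ℝ) → (ι → Bool) → ℝ)
    (hm : ∀ x, Measurable fun g => Φ g x) {B : ℝ} (hB : ∀ g x, |Φ g x| ≤ B) :
    Integrable (fun g => wgt J u g * mean (gibbs J (fld u g)) (Φ g)) (gauss ι) ∧
    ∫ g, wgt J u g * mean (gibbs J (fld u g)) (Φ g) ∂gauss ι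
      = mean (p0 J) fun x => plantedMean u (fun g => Φ g x) x := by
  have e : ∀ g, wgt J u g * mean (gibbs J (fld u g)) (Φ g)
      = ∑ x, p0 J x * (shiftW (plant u x) g * Φ g x) := fun g => by
    simp only [← Local.sum_tilt, tilt_eq_shiftW J hu, mul_assoc]
  have hi : ∀ x, Integrable (fun g => p0 J x * (shiftW (plant u x) g * Φ g x)) (gauss ι) :=
    fun x => (integrable_mul_bdd (integrable_shiftW _) (hm x) fun g => hB g x).const_mul _
  simp only [e]
  refine ⟨integrable_finsetSum _ fun x _ => hi x, ?_⟩
  rw [integral_finsetSum _ fun x _ => hi x]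
  simp only [integral_const_mul, mean, plantedMean]

omit [Fintype ι] [DecidableEq ι] in
lemma fld_add_plant (hu : 0 ≤ u) (x : ι → Bool) (ξ : ι → ℝ) :
    Local.fld u (ξ + plant u x) = fun i => u * spins x i + √u * ξ i := by
  funext i
  simp only [Local.fld, Pi.add_apply, plant, mul_add, ← mul_assoc, Real.mul_self_sqrt hu]
  ring

omit [DecidableEq ι] in
/-- The planted probability of an event of the field. -/
theorem plantedMean_indicator (hu : 0 ≤ u) (x : ι → Bool) {S : Set (ι → ℝ)}
    (hS : MeasurableSet S) :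
    plantedMean u (fun g => S.indicator 1 (Local.fld u g)) x
      = (gauss ι).real {ξ | (fun i => u * spins x i + √u * ξ i) ∈ S} := by
  have hfm : Measurable (Local.fld (ι := ι) u) :=
    measurable_pi_lambda _ fun i => (measurable_pi_apply i).const_mul _
  have hs : Measurable fun g : ι → ℝ => S.indicator (1 : (ι → ℝ) → ℝ) (Local.fld u g) :=
    (measurable_one.indicator hS).comp hfm
  rw [plantedMean, ← integral_shift _ hs]
  simp only [fld_add_plant hu]
  have hm : MeasurableSet {ξ : ι → ℝ | (fun i => u * spins x i + √u * ξ i) ∈ S} :=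
    measurableSet_preimage (measurable_pi_lambda _ fun i =>
      ((measurable_pi_apply i).const_mul _).const_add _) hS
  rw [← integral_indicator_one hm]
  rfl

omit [DecidableEq ι] in
lemma plantedMean_const (u c : ℝ) (x : ι → Bool) : plantedMean u (fun _ => c) x = c := by
  rw [plantedMean, integral_mul_const, integral_shiftW, one_mul]

omit [DecidableEq ι] in
lemma plantedMean_mono {φ φ' : (ι → ℝ) → ℝ} (hm : Measurable φ) (hm' : Measurable φ') {B : ℝ}
    (hB : ∀ g, |φ g| ≤ B) (hB' : ∀ g, |φ' g| ≤ B) (h : ∀ g, φ g ≤ φ' g) (x : ι → Bool) :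
    plantedMean u φ x ≤ plantedMean u φ' x :=
  integral_mono (integrable_mul_bdd (integrable_shiftW _) hm hB)
    (integrable_mul_bdd (integrable_shiftW _) hm' hB')
    fun g => mul_le_mul_of_nonneg_left (h g) (exp_pos _).le

omit [Fintype ι] [DecidableEq ι] in
lemma continuous_fld (u : ℝ) : Continuous (Local.fld (ι := ι) u) := by
  unfold Local.fld
  fun_prop

end Vale.Agent.P150.Beta1.PassTwo
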