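import Mathlib
import Vale.Agent.P150.Beta1.Fields.Nishimori
import Vale.Agent.P150.Beta1.Defs

/-!
# Square roots of probabilities seen through the localisation have a bounded gradient

For observables `h x` of the field with values in `[0, 1]`, the root of `x ↦ E (h x ²)` under the
field planted at `x` has squared discrete gradient of order one: the flip densities are orthogonal
under the planted law, so Bessel's inequality applies.
-/

namespace Vale.Agent.P150.Beta1.PassTwo

open MeasureTheory ProbabilityTheory Finset Function Real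

variable {ι : Type*} [Fintype ι]

lemma le_sqrt_mul_of_forall {X A B : ℝ} (hA : 0 ≤ A) (hB : 0 ≤ B)
    (h : ∀ t > 0, 2 * X ≤ t * A + B / t) : X ≤ √A * √B := by
  refine le_of_forall_pos_le_add fun η hη => ?_
  set a := √A
  set b := √B
  have ha : 0 ≤ a := Real.sqrt_nonneg _
  have hb : 0 ≤ b := Real.sqrt_nonneg _
  have hd : 0 < a + b + 1 := by positivity
  set e := η / (a + b + 1)
  have he : 0 < e := div_pos hη hd
  have h1 := h ((b + e) / (a + e)) (by positivity)
  rw [show A = a * a from (Real.mul_self_sqrt hA).symm,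
    show B = b * b from (Real.mul_self_sqrt hB).symm] at h1
  have i1 : (b + e) / (a + e) * (a * a) ≤ (b + e) * a := by
    rw [div_mul_eq_mul_div, div_le_iff₀ (by positivity)]
    have := mul_nonneg (mul_nonneg (show 0 ≤ b + e by positivity) ha) he.le
    linarith
  have i2 : b * b / ((b + e) / (a + e)) ≤ b * (a + e) := by
    rw [div_div_eq_mul_div, div_le_iff₀ (by positivity)]
    have := mul_nonneg (mul_nonneg (show 0 ≤ a + e by positivity) hb) he.le
    linarith
  have i3 : e * (a + b) ≤ η := by
    rw [div_mul_eq_mul_div, div_le_iff₀ hd]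
    linarith [mul_nonneg hη.le ha, mul_nonneg hη.le hb]
  linarith

lemma integrable_mul_bdd {w a : (ι → ℝ) → ℝ} (hw : Integrable w (gauss ι)) (ha : Measurable a)
    {B : ℝ} (hB : ∀ g, |a g| ≤ B) : Integrable (fun g => w g * a g) (gauss ι) :=
  hw.mul_bdd ha.aestronglyMeasurable (ae_of_all _ hB)

/-- The triangle inequality in `L²`, squared. -/
lemma sq_sqrt_sub_le {w a b : (ι → ℝ) → ℝ} (hw0 : ∀ g, 0 ≤ w g) (hw : Integrable w (gauss ι))
    (ha : Measurable a) (hb : Measurable b) (ha1 : ∀ g, |a g| ≤ 1) (hb1 : ∀ g, |b g| ≤ 1) :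
    (√(∫ g, w g * a g ^ 2 ∂gauss ι) - √(∫ g, w g * b g ^ 2 ∂gauss ι)) ^ 2
      ≤ ∫ g, w g * (a g - b g) ^ 2 ∂gauss ι := by
  have hbd : ∀ {p q : (ι → ℝ) → ℝ}, (∀ g, |p g| ≤ 1) → (∀ g, |q g| ≤ 1) → ∀ g, |p g * q g| ≤ 1 :=
    fun hp hq g => by rw [abs_mul]; exact mul_le_one₀ (hp g) (abs_nonneg _) (hq g)
  have iaa := integrable_mul_bdd hw (ha.mul ha) (hbd ha1 ha1)
  have ibb := integrable_mul_bdd hw (hb.mul hb) (hbd hb1 hb1)
  have iab := integrable_mul_bdd hw (ha.mul hb) (hbd ha1 hb1)
  simp only [Pi.mul_apply] at iaa ibb iab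
  simp only [sq (a _), sq (b _)]
  set A := ∫ g, w g * (a g * a g) ∂gauss ι
  set B := ∫ g, w g * (b g * b g) ∂gauss ι
  set X := ∫ g, w g * (a g * b g) ∂gauss ι
  have hA : 0 ≤ A := integral_nonneg fun g => mul_nonneg (hw0 g) (mul_self_nonneg _)
  have hB : 0 ≤ B := integral_nonneg fun g => mul_nonneg (hw0 g) (mul_self_nonneg _)
  have hX : X ≤ √A * √B := le_sqrt_mul_of_forall hA hB fun t ht => by
    have hm : ∫ g, 2 * (w g * (a g * b g)) ∂gauss ι
        ≤ ∫ g, (t * (w g * (a g * a g)) + 1 / t * (w g * (b g * b g))) ∂gauss ι := by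
      refine integral_mono (iab.const_mul 2) ((iaa.const_mul t).add (ibb.const_mul (1 / t)))
        fun g => ?_
      beta_reduce
      have h := mul_nonneg (hw0 g) (div_nonneg (sq_nonneg (t * a g - b g)) ht.le)
      have e : (t * a g - b g) ^ 2 / t = t * (a g * a g) - 2 * (a g * b g) + b g * b g / t := by
        field_simp
        ring
      rw [e] at h
      refine sub_nonneg.1 (h.trans_eq ?_)
      ring
    rw [integral_const_mul, integral_add (iaa.const_mul _) (ibb.const_mul _), integral_const_mul,
      integral_const_mul] at hm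
    calc 2 * X ≤ t * A + 1 / t * B := hm
      _ = _ := by ring
  have e : ∫ g, w g * (a g - b g) ^ 2 ∂gauss ι = A + B - 2 * X := by
    rw [← integral_const_mul, ← integral_add iaa ibb,
      ← integral_sub (iaa.fun_add ibb) (iab.const_mul 2)]
    exact integral_congr_ae (ae_of_all _ fun g => by ring)
  rw [e, sub_sq, Real.sq_sqrt hA, Real.sq_sqrt hB]
  linarith

variable [DecidableEq ι]

/-- The configuration with the spin at `j` reversed. -/
def flip (x : ι → Bool) (j : ι) : ι → Bool := update x j (!x j)

omit [Fintype ι] in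
lemma deriv2_sq_eq (j : ι) (s : (ι → Bool) → ℝ) (x : ι → Bool) :
    deriv2 j s x ^ 2 = (s (flip x j) - s x) ^ 2 / 4 := by
  cases hb : x j
  · rw [deriv2, flip, hb, show update x j false = x by rw [← hb, update_eq_self]]
    simp only [Bool.not_false]
    ring
  · rw [deriv2, flip, hb, show update x j true = x by rw [← hb, update_eq_self]]
    simp only [Bool.not_true]
    ring

/-- The planted field, as a translation. -/
noncomputable def plant (u : ℝ) (x : ι → Bool) : ι → ℝ := fun i => √u * spins x i

lemma spin_sq (b : Bool) : spin b * spin b = 1 := by cases b <;> simp [spin]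

omit [DecidableEq ι] in
lemma sqn_plant {u : ℝ} (hu : 0 ≤ u) (x : ι → Bool) : sqn (plant u x) = u * Fintype.card ι := by
  have e : ∀ i, (√u * spins x i) ^ 2 = u := fun i => by
    rw [mul_pow, Real.sq_sqrt hu, spins, sq, spin_sq, mul_one]
  simp only [sqn, plant, e, sum_const, card_univ, nsmul_eq_mul, mul_comm]

/-- The translation that carries the planted law at `x` to the one at `flip x j`. -/
noncomputable def flipDir (u : ℝ) (x : ι → Bool) (j : ι) : ι → ℝ :=
  Pi.single j (-2 * √u * spins x j)

omit [Fintype ι] in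
lemma plant_flip (u : ℝ) (x : ι → Bool) (j : ι) :
    plant u (flip x j) = plant u x + flipDir u x j := by
  funext i
  rcases eq_or_ne i j with rfl | h
  · simp only [plant, flipDir, Pi.add_apply, Pi.single_eq_same, spins, flip, update_self]
    cases x i <;> simp [spin] <;> ring
  · simp [plant, flipDir, Pi.single_eq_of_ne h, spins, flip, update_of_ne h]

omit [DecidableEq ι] in
lemma shiftW_mul_exp (a b g : ι → ℝ) :
    shiftW a g * exp (lin b g) = exp (lin a b + sqn b / 2) * shiftW (a + b) g := by
  simp only [shiftW, ← exp_add]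
  congr 1
  simp only [lin, sqn, Pi.add_apply, add_mul, add_sq, sum_add_distrib, mul_assoc, ← mul_sum]
  ring

omit [DecidableEq ι] in
lemma integral_shiftW (a : ι → ℝ) : ∫ g, shiftW a g ∂gauss ι = 1 := by
  simpa using (integral_shift a (F := fun _ => (1 : ℝ)) measurable_const).symm

lemma lin_plant_flipDir {u : ℝ} (hu : 0 ≤ u) (x : ι → Bool) (j : ι) :
    lin (plant u x) (flipDir u x j) = -2 * u ∧ sqn (flipDir u x j) = 4 * u := by
  constructor
  · simp only [lin, plant, flipDir, Pi.single_apply, mul_ite, mul_zero, sum_ite_eq', mem_univ,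
      if_true]
    calc √u * spins x j * (-2 * √u * spins x j)
        = -2 * (√u * √u) * (spin (x j) * spin (x j)) := by simp only [spins]; ring
      _ = _ := by rw [Real.mul_self_sqrt hu, spin_sq, mul_one]
  · simp only [sqn, flipDir, Pi.single_apply, ite_pow, ne_eq, OfNat.ofNat_ne_zero,
      not_false_eq_true, zero_pow, sum_ite_eq', mem_univ, if_true]
    calc (-2 * √u * spins x j) ^ 2 = 4 * (√u * √u) * (spin (x j) * spin (x j)) := by
          simp only [spins]; ring
      _ = _ := by rw [Real.mul_self_sqrt hu, spin_sq, mul_one]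

lemma shiftW_flip {u : ℝ} (hu : 0 ≤ u) (x : ι → Bool) (j : ι) (g : ι → ℝ) :
    shiftW (plant u (flip x j)) g = shiftW (plant u x) g * exp (lin (flipDir u x j) g) := by
  obtain ⟨h1, h2⟩ := lin_plant_flipDir hu x j
  rw [shiftW_mul_exp, ← plant_flip, h1, h2, show -2 * u + 4 * u / 2 = 0 by ring, exp_zero, one_mul]

/-- The flip densities, centred, are orthogonal. -/
lemma integral_flip_mul {u : ℝ} (hu : 0 ≤ u) (x : ι → Bool) (j k : ι) :
    ∫ g, shiftW (plant u x) g * ((exp (lin (flipDir u x j) g) - 1)
        * (exp (lin (flipDir u x k) g) - 1)) ∂gauss ι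
      = if j = k then exp (4 * u) - 1 else 0 := by
  obtain ⟨a1, a2⟩ := lin_plant_flipDir hu x j
  obtain ⟨b1, b2⟩ := lin_plant_flipDir hu x k
  set a := plant u x
  set p := flipDir u x j with hp
  set q := flipDir u x k with hq
  have e : ∀ g, shiftW a g * ((exp (lin p g) - 1) * (exp (lin q g) - 1))
      = exp (lin a (p + q) + sqn (p + q) / 2) * shiftW (a + (p + q)) g
        - shiftW (a + p) g - shiftW (a + q) g + shiftW a g := fun g => by
    have h1 := shiftW_mul_exp a p g
    have h2 := shiftW_mul_exp a q g
    rw [a1, a2, show -2 * u + 4 * u / 2 = 0 by ring, exp_zero, one_mul] at h1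
    rw [b1, b2, show -2 * u + 4 * u / 2 = 0 by ring, exp_zero, one_mul] at h2
    rw [← shiftW_mul_exp, ← h1, ← h2,
      show lin (p + q) g = lin p g + lin q g by
        simp only [lin, Pi.add_apply, add_mul, sum_add_distrib], exp_add]
    ring
  simp only [e]
  rw [integral_add, integral_sub, integral_sub, integral_const_mul, integral_shiftW,
    integral_shiftW, integral_shiftW, integral_shiftW]
  · have h3 : lin a (p + q) + sqn (p + q) / 2 = lin p q := by
      rw [lin_add_right, a1, b1]
      simp only [sqn, Pi.add_apply, add_sq, sum_add_distrib, mul_assoc, ← mul_sum] at a2 b2 ⊢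
      rw [a2, b2, lin]
      ring
    rw [h3]
    split_ifs with hjk
    · rw [hp, hq, ← hjk, lin_self, (lin_plant_flipDir hu x j).2]
      ring
    · have : lin p q = 0 := by
        simp [lin, hp, hq, flipDir, Pi.single_apply, Ne.symm hjk]
      rw [this, exp_zero]
      ring
  all_goals first
    | exact integrable_shiftW _
    | exact (integrable_shiftW _).const_mul _
    | exact ((integrable_shiftW _).const_mul _).sub (integrable_shiftW _)
    | exact (((integrable_shiftW _).const_mul _).sub (integrable_shiftW _)).sub (integrable_shiftW _)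

/-- Mean under the field planted at `x`. -/
noncomputable def plantedMean (u : ℝ) (φ : (ι → ℝ) → ℝ) (x : ι → Bool) : ℝ :=
  ∫ g, shiftW (plant u x) g * φ g ∂gauss ι

omit [DecidableEq ι] in
lemma plantedMean_mem {u : ℝ} {φ : (ι → ℝ) → ℝ} (hm : Measurable φ)
    (h01 : ∀ g, φ g ∈ Set.Icc (0:ℝ) 1) (x : ι → Bool) :
    plantedMean u φ x ∈ Set.Icc (0:ℝ) 1 := by
  refine ⟨integral_nonneg fun g => mul_nonneg (exp_pos _).le (h01 g).1, ?_⟩
  refine (integral_mono (integrable_mul_bdd (integrable_shiftW _) hm (B := 1) fun g => ?_)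
    (integrable_shiftW (plant u x)) fun g => ?_).trans (integral_shiftW _).le
  · exact abs_le.2 ⟨by linarith [(h01 g).1], (h01 g).2⟩
  · exact mul_le_of_le_one_right (exp_pos _).le (h01 g).2

/-- Bessel: flipping moves the planted means of one observable little, in square sum. -/
lemma sum_sqrt_plantedMean_flip {u : ℝ} (hu : 0 ≤ u) {φ : (ι → ℝ) → ℝ} (hm : Measurable φ)
    (h01 : ∀ g, φ g ∈ Set.Icc (0:ℝ) 1) (x : ι → Bool) :
    ∑ j, (√(plantedMean u φ (flip x j)) - √(plantedMean u φ x)) ^ 2 ≤ exp (4 * u) := by
  set p₀ := plantedMean u φ x with hp₀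
  have hp₀0 : 0 ≤ p₀ := (plantedMean_mem hm h01 x).1
  set W := shiftW (plant u x)
  have hB : ∀ g, |φ g| ≤ 1 := fun g => abs_le.2 ⟨by linarith [(h01 g).1], (h01 g).2⟩
  set Z : ι → (ι → ℝ) → ℝ := fun j g => exp (lin (flipDir u x j) g) - 1
  have hWZ : ∀ j g, W g * Z j g = shiftW (plant u (flip x j)) g - W g := fun j g => by
    rw [shiftW_flip hu]; simp only [Z, W]; ring
  have iWZ : ∀ j, Integrable (fun g => W g * Z j g) (gauss ι) := fun j => by
    simp only [hWZ]
    exact (integrable_shiftW _).sub (integrable_shiftW _)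
  set c : ι → ℝ := fun j => plantedMean u φ (flip x j) - p₀ with hc
  have hcj : ∀ j, c j = ∫ g, W g * Z j g * φ g ∂gauss ι := fun j => by
    simp only [hWZ, sub_mul]
    rw [integral_sub (integrable_mul_bdd (integrable_shiftW _) hm hB)
      (integrable_mul_bdd (integrable_shiftW _) hm hB)]
    rfl
  set S := ∑ j, c j ^ 2 with hS
  set L := exp (4 * u) with hL
  have hL0 : 0 < L := exp_pos _
  have iZZ : ∀ j k, Integrable (fun g => W g * (Z j g * Z k g)) (gauss ι) := fun j k => by
    have e : (fun g => W g * (Z j g * Z k g)) = fun g =>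
        exp (lin (plant u x) (flipDir u x j + flipDir u x k)
            + sqn (flipDir u x j + flipDir u x k) / 2)
          * shiftW (plant u x + (flipDir u x j + flipDir u x k)) g
        - shiftW (plant u (flip x j)) g - shiftW (plant u (flip x k)) g + W g := by
      funext g
      rw [← shiftW_mul_exp, shiftW_flip hu, shiftW_flip hu,
        show lin (flipDir u x j + flipDir u x k) g = lin (flipDir u x j) g + lin (flipDir u x k) g
          by simp only [lin, Pi.add_apply, add_mul, sum_add_distrib], exp_add]
      simp only [Z, W]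
      ring
    rw [e]
    exact ((((integrable_shiftW _).const_mul _).sub (integrable_shiftW _)).sub
      (integrable_shiftW _)).add (integrable_shiftW _)
  have hS0 : 0 ≤ S := sum_nonneg fun j _ => sq_nonneg _
  have key : 2 * S ≤ L * p₀ + S := by
    have i1 : Integrable (fun g => ∑ j, c j * (W g * Z j g * φ g)) (gauss ι) :=
      integrable_finsetSum _ fun j _ => (integrable_mul_bdd (iWZ j) hm hB).const_mul _
    have i2 : Integrable (fun g => ∑ j, ∑ k, c j * c k * (W g * (Z j g * Z k g))) (gauss ι) :=
      integrable_finsetSum _ fun j _ => integrable_finsetSum _ fun k _ => (iZZ j k).const_mul _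
    have i3 : Integrable (fun g => W g * φ g) (gauss ι) :=
      integrable_mul_bdd (integrable_shiftW _) hm hB
    have h1 : ∫ g, ∑ j, c j * (W g * Z j g * φ g) ∂gauss ι = S := by
      rw [integral_finsetSum _ fun j _ => (integrable_mul_bdd (iWZ j) hm hB).const_mul _, hS]
      exact sum_congr rfl fun j _ => by rw [integral_const_mul, ← hcj, sq]
    have h2 : ∫ g, ∑ j, ∑ k, c j * c k * (W g * (Z j g * Z k g)) ∂gauss ι ≤ L * S := by
      rw [integral_finsetSum _ fun j _ => integrable_finsetSum _ fun k _ => (iZZ j k).const_mul _,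
        hS, mul_sum]
      refine sum_le_sum fun j _ => le_of_eq_of_le ?_ (mul_le_mul_of_nonneg_right
        (sub_le_self L zero_le_one) (sq_nonneg (c j)))
      rw [integral_finsetSum _ fun k _ => (iZZ j k).const_mul _]
      simp only [W, Z, integral_const_mul, integral_flip_mul hu, mul_ite, mul_zero, sum_ite_eq,
        mem_univ, if_true, L]
      ring
    have hm' := integral_mono (i1.const_mul 2) ((i3.const_mul L).fun_add (i2.const_mul (1 / L)))
      fun g => by
        beta_reduce
        set Y := ∑ j, c j * Z j g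
        have e1 : ∑ j, c j * (W g * Z j g * φ g) = W g * (φ g * Y) := by
          simp only [Y, mul_sum]
          exact sum_congr rfl fun j _ => by ring
        have e2 : ∑ j, ∑ k, c j * c k * (W g * (Z j g * Z k g)) = W g * (Y * Y) := by
          simp only [Y]
          rw [sum_mul_sum, mul_sum]
          refine sum_congr rfl fun j _ => ?_
          rw [mul_sum]
          exact sum_congr rfl fun k _ => by ring
        rw [e1, e2]
        have h := mul_nonneg (exp_pos (lin (plant u x) g - sqn (plant u x) / 2)).le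
          (div_nonneg (sq_nonneg (L * φ g - Y)) hL0.le)
        have hsq : φ g * φ g ≤ φ g := mul_le_of_le_one_left (h01 g).1 (h01 g).2
        have e : (L * φ g - Y) ^ 2 / L = L * (φ g * φ g) - 2 * (φ g * Y) + Y * Y / L := by
          field_simp
          ring
        rw [e] at h
        have := mul_le_mul_of_nonneg_left hsq
          (mul_nonneg hL0.le (exp_pos (lin (plant u x) g - sqn (plant u x) / 2)).le)
        simp only [W, shiftW]
        have e' : exp (lin (plant u x) g - sqn (plant u x) / 2) * (Y * Y / L)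
            = 1 / L * (exp (lin (plant u x) g - sqn (plant u x) / 2) * (Y * Y)) := by ring
        rw [mul_add, mul_sub, e'] at h
        generalize 1 / L * (exp (lin (plant u x) g - sqn (plant u x) / 2) * (Y * Y)) = T at h ⊢
        linarith
    rw [integral_const_mul, h1, integral_add (i3.const_mul _) (i2.const_mul _), integral_const_mul,
      integral_const_mul] at hm'
    have := mul_le_mul_of_nonneg_left h2 (one_div_pos.2 hL0).le
    rw [← mul_assoc, one_div_mul_cancel hL0.ne', one_mul] at this
    change 2 * S ≤ L * p₀ + _ at hm'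
    linarith
  have key' : S ≤ L * p₀ := by linarith
  rcases hp₀0.eq_or_lt with h0 | hpos
  · have hz : ∀ j, plantedMean u φ (flip x j) = p₀ := fun j => by
      have h1 : c j ^ 2 ≤ S := single_le_sum (fun k _ => sq_nonneg (c k)) (mem_univ j)
      rw [← h0, mul_zero] at key'
      have : c j ^ 2 = 0 := le_antisymm (h1.trans key') (sq_nonneg _)
      exact sub_eq_zero.1 (pow_eq_zero_iff two_ne_zero |>.1 this)
    simp [hz, L, (exp_pos _).le]
  · calc ∑ j, (√(plantedMean u φ (flip x j)) - √p₀) ^ 2 ≤ ∑ j, c j ^ 2 / p₀ := by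
          refine sum_le_sum fun j _ => ?_
          rw [le_div_iff₀ hpos]
          set b := plantedMean u φ (flip x j)
          have hb : 0 ≤ b := (plantedMean_mem hm h01 _).1
          have e : c j = (√b - √p₀) * (√b + √p₀) := by
            have h1 := Real.mul_self_sqrt hb
            have h2 := Real.mul_self_sqrt hp₀0
            simp only [c]
            linear_combination h2 - h1
          rw [e, mul_pow]
          refine mul_le_mul_of_nonneg_left ?_ (sq_nonneg _)
          calc p₀ = √p₀ ^ 2 := (Real.sq_sqrt hp₀0).symm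
            _ ≤ _ := pow_le_pow_left₀ (Real.sqrt_nonneg _)
                (le_add_of_nonneg_left (Real.sqrt_nonneg _)) 2
      _ ≤ L := by rw [← sum_div, div_le_iff₀ hpos]; exact key'

/-- The root of the planted mean of `h x ²` has gradient of order one. -/
theorem sum_deriv2_sqrt_le {u D : ℝ} (hu : 0 ≤ u) {h : (ι → Bool) → (ι → ℝ) → ℝ}
    (hm : ∀ x, Measurable (h x)) (h01 : ∀ x g, h x g ∈ Set.Icc (0:ℝ) 1)
    (hD : ∀ x j g, (h (flip x j) g - h x g) ^ 2 ≤ D) (x : ι → Bool) :
    ∑ j, deriv2 j (fun z => √(plantedMean u (fun g => h z g ^ 2) z)) x ^ 2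
      ≤ exp (4 * u) + D * Fintype.card ι := by
  have hsq : ∀ z g, h z g ^ 2 ∈ Set.Icc (0:ℝ) 1 := fun z g =>
    ⟨sq_nonneg _, pow_le_one₀ (h01 z g).1 (h01 z g).2⟩
  have hb := sum_sqrt_plantedMean_flip hu (φ := fun g => h x g ^ 2) ((hm x).pow_const 2) (hsq x) x
  have habs : ∀ z g, |h z g| ≤ 1 := fun z g => abs_le.2 ⟨by linarith [(h01 z g).1], (h01 z g).2⟩
  have hstep : ∀ j, (√(plantedMean u (fun g => h (flip x j) g ^ 2) (flip x j))
      - √(plantedMean u (fun g => h x g ^ 2) (flip x j))) ^ 2 ≤ D := fun j => by
    refine (sq_sqrt_sub_le (fun g => (exp_pos _).le) (integrable_shiftW _) (hm _) (hm _)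
      (habs _) (habs _)).trans ?_
    have hd : Measurable fun g => (h (flip x j) g - h x g) ^ 2 := ((hm _).sub (hm _)).pow_const 2
    calc ∫ g, shiftW (plant u (flip x j)) g * (h (flip x j) g - h x g) ^ 2 ∂gauss ι
        ≤ ∫ g, shiftW (plant u (flip x j)) g * D ∂gauss ι :=
          integral_mono (integrable_mul_bdd (integrable_shiftW _) hd (B := D) fun g => by
              rw [abs_of_nonneg (sq_nonneg _)]; exact hD x j g)
            ((integrable_shiftW _).mul_const D)
            fun g => mul_le_mul_of_nonneg_left (hD x j g) (exp_pos _).le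
      _ = D := by rw [integral_mul_const, integral_shiftW, one_mul]
  calc ∑ j, deriv2 j (fun z => √(plantedMean u (fun g => h z g ^ 2) z)) x ^ 2
      ≤ ∑ j, (D + (√(plantedMean u (fun g => h x g ^ 2) (flip x j))
          - √(plantedMean u (fun g => h x g ^ 2) x)) ^ 2) := sum_le_sum fun j _ => by
        rw [deriv2_sq_eq]
        have h1 := hstep j
        have h2 := add_sq_le (a := √(plantedMean u (fun g => h (flip x j) g ^ 2) (flip x j))
          - √(plantedMean u (fun g => h x g ^ 2) (flip x j)))
          (b := √(plantedMean u (fun g => h x g ^ 2) (flip x j))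
          - √(plantedMean u (fun g => h x g ^ 2) x))
        rw [sub_add_sub_cancel] at h2
        have := sq_nonneg (√(plantedMean u (fun g => h x g ^ 2) (flip x j))
          - √(plantedMean u (fun g => h x g ^ 2) x))
        have := sq_nonneg (√(plantedMean u (fun g => h (flip x j) g ^ 2) (flip x j))
          - √(plantedMean u (fun g => h x g ^ 2) (flip x j)))
        linarith
    _ ≤ _ := by
        rw [sum_add_distrib, sum_const, card_univ, nsmul_eq_mul]
        linarith

end Vale.Agent.P150.Beta1.PassTwo
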