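import Vale.Agent.P150.Beta1.Fields.Interface
import Vale.Agent.P150.Beta1.Rule.Tests
import Vale.Agent.P150.Beta1.PassTwo.Cutoff
import Vale.Agent.P150.Beta1.Fields.Nishimori

/-!
# The smooth cutoff of configurations with an iterate far from the mean
-/

namespace Vale.Agent.P150.Beta1.PassTwo

open Finset Function Real

/-- The mean configuration at a field. -/
noncomputable def bmean {ι : Type*} [Fintype ι] [DecidableEq ι] (J : ι → ι → ℝ) (y : ι → ℝ) (i : ι) : ℝ :=
  mean (gibbs J y) fun z => spins z i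

variable {n : ℕ}

/-- Zero when `ampA j` is within `ρ √n / 4` of the mean, one beyond `ρ √n / 2`. -/
noncomputable def farObs (β ρ : ℝ) (J : Fin n → Fin n → ℝ) (j : ℕ) (x : Fin n → Bool)
    (y : Fin n → ℝ) : ℝ :=
  min 1 (max 0 ((√(∑ i, (ampA β J y (spins x) j i - bmean J y i) ^ 2) / √n - ρ / 4) / (ρ / 4)))

variable {β ρ : ℝ} {J : Fin n → Fin n → ℝ}

lemma farObs_mem (j : ℕ) (x : Fin n → Bool) (y : Fin n → ℝ) :
    farObs β ρ J j x y ∈ Set.Icc (0 : ℝ) 1 :=
  ⟨le_min zero_le_one (le_max_left _ _), min_le_left _ _⟩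

lemma continuous_bmean : Continuous fun y : Fin n → ℝ => bmean J y := by
  refine continuous_pi fun i => ?_
  simp only [bmean, mean]
  refine continuous_finsetSum _ fun z _ => ?_
  refine Continuous.mul ?_ continuous_const
  simp only [gibbs, energy]
  exact Continuous.div₀ (by fun_prop) (by fun_prop) fun y => partition_pos.ne'

lemma continuous_farObs (j : ℕ) (x : Fin n → Bool) :
    Continuous fun y => farObs β ρ J j x y := by
  have h1 : ∀ i, Continuous fun y => ampA β J y (spins x) j i := fun i =>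
    (continuous_apply i).comp ((continuous_ampA β (spins x) j).comp
      (continuous_const.prodMk continuous_id))
  have h2 : ∀ i, Continuous fun y => bmean J y i := fun i =>
    (continuous_apply i).comp (continuous_bmean (J := J))
  simp only [farObs]
  fun_prop

lemma measurable_farObs (j : ℕ) (x : Fin n → Bool) :
    Measurable fun y => farObs β ρ J j x y :=
  (continuous_farObs j x).measurable

/-- The triangle inequality for the Euclidean norm. -/
lemma sqrt_sum_sq_add_le (a b : Fin n → ℝ) :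
    √(∑ i, (a i + b i) ^ 2) ≤ √(∑ i, a i ^ 2) + √(∑ i, b i ^ 2) := by
  have h := Real.sum_mul_le_sqrt_mul_sqrt univ a b
  have ha := Real.sq_sqrt (sum_nonneg fun i (_ : i ∈ univ) => sq_nonneg (a i))
  have hb := Real.sq_sqrt (sum_nonneg fun i (_ : i ∈ univ) => sq_nonneg (b i))
  refine (Real.sqrt_le_left (by positivity)).2 ?_
  rw [add_sq, ha, hb]
  simp only [add_sq, sum_add_distrib, mul_assoc, ← mul_sum]
  linarith

lemma abs_sqrt_sum_sq_sub_le (a b : Fin n → ℝ) :
    |√(∑ i, a i ^ 2) - √(∑ i, b i ^ 2)| ≤ √(∑ i, (a i - b i) ^ 2) := by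
  have h1 := sqrt_sum_sq_add_le (fun i => a i - b i) b
  have h2 := sqrt_sum_sq_add_le (fun i => b i - a i) a
  simp only [sub_add_cancel] at h1 h2
  have e : ∑ i, (b i - a i) ^ 2 = ∑ i, (a i - b i) ^ 2 := sum_congr rfl fun i _ => by ring
  rw [e] at h2
  exact abs_le.2 ⟨by linarith, by linarith⟩

/-- The cutoff moves by `O (n^{-1/2})` under a flip. -/
theorem farObs_flip (β : ℝ) {ρ : ℝ} (hρ : 0 < ρ) {j : ℕ} (hj : 1 ≤ j) :
    ∃ m : ℕ, ∀ C, ∃ D : ℝ, 0 ≤ D ∧ ∀ (n : ℕ) (J : Fin n → Fin n → ℝ), GoodWords β m C J →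
      ∀ (l : Fin n) (y : Fin n → ℝ) (x : Fin n → Bool),
        (farObs β ρ J j (flip x l) y - farObs β ρ J j x y) ^ 2 ≤ D / n := by
  obtain ⟨k, rfl⟩ : ∃ k, j = k + 1 := ⟨j - 1, by omega⟩
  obtain ⟨m, hm⟩ := Rule.gradStatement β k
  refine ⟨m, fun C => ?_⟩
  obtain ⟨C', hC'⟩ := hm C
  refine ⟨64 * max C' 0 / ρ ^ 2, by positivity, fun n J hG l y x => ?_⟩
  set S := fun z => ∑ i, (ampA β J y (spins z) (k + 1) i - bmean J y i) ^ 2
  set a := fun i => deriv2 l (fun z => ampZ β J y (spins z) k i) x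
  have hcol : ∑ i, a i ^ 2 ≤ max C' 0 := by
    have h := (single_le_sum (f := fun j => (∑ i, a i
      * deriv2 j (fun z => ampZ β J y (spins z) k i) x) ^ 2) (fun _ _ => sq_nonneg _)
      (mem_univ l)).trans (hC' n J y a x hG)
    simp only [a, ← sq] at h ⊢
    rcases (sum_nonneg fun i (_ : i ∈ univ) => sq_nonneg (a i)).eq_or_lt with h0 | h0
    · simp only [a] at h0; rw [← h0]; exact le_max_right _ _
    · simp only [a] at h0
      rw [sq] at h
      exact (le_of_mul_le_mul_right h h0).trans (le_max_left _ _)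
  have hA : √(∑ i, (ampA β J y (spins (flip x l)) (k + 1) i
      - ampA β J y (spins x) (k + 1) i) ^ 2) ≤ √(4 * max C' 0) := by
    refine Real.sqrt_le_sqrt ((sum_le_sum fun i _ => ?_).trans
      ((mul_sum _ _ _).symm.trans_le (mul_le_mul_of_nonneg_left hcol (by norm_num : (0:ℝ) ≤ 4))))
    have h1 := deriv2_sq_eq l (fun z => ampZ β J y (spins z) k i) x
    have h2 := tanh_dist_le (ampZ β J y (spins (flip x l)) k i) (ampZ β J y (spins x) k i)
    refine (sq_le_sq.2 h2).trans (le_of_eq ?_)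
    rw [show a i ^ 2 = _ from h1]
    ring
  rcases Nat.eq_zero_or_pos n with rfl | hn
  · exact Fin.elim0 l
  have hsn : 0 < √(n : ℝ) := Real.sqrt_pos.2 (Nat.cast_pos.2 hn)
  have hlip : |farObs β ρ J (k + 1) (flip x l) y - farObs β ρ J (k + 1) x y|
      ≤ √(4 * max C' 0) / √n / (ρ / 4) := by
    simp only [farObs]
    refine ((abs_min_sub_min_le_max _ _ _ _).trans (max_le (by simp; positivity) ?_))
    refine ((abs_max_sub_max_le_max _ _ _ _).trans (max_le (by simp; positivity) ?_))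
    rw [← sub_div, sub_sub_sub_cancel_right, ← sub_div, abs_div, abs_div, abs_of_pos hsn,
      abs_of_pos (by positivity : 0 < ρ / 4)]
    refine div_le_div_of_nonneg_right (div_le_div_of_nonneg_right ?_ hsn.le) (by positivity)
    refine (abs_sqrt_sum_sq_sub_le _ _).trans (le_of_eq_of_le ?_ hA)
    simp only [sub_sub_sub_cancel_right]
  rw [← sq_abs]
  refine (pow_le_pow_left₀ (abs_nonneg _) hlip 2).trans (le_of_eq ?_)
  rw [div_pow, div_pow, Real.sq_sqrt (by positivity), Real.sq_sqrt (Nat.cast_nonneg n)]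
  field_simp
  ring

/-- Where the cutoff is positive the iterate is far from any point near the mean. -/
theorem far_of_farObs_pos (hρ : 0 < ρ) {m y : Fin n → ℝ}
    (hm : ∑ i, (bmean J y i - m i) ^ 2 ≤ ρ ^ 2 * n / 64) {j : ℕ} {x : Fin n → Bool}
    (h : 0 < farObs β ρ J j x y) :
    (ρ / 8) ^ 2 * n < ∑ i, (ampA β J y (spins x) j i - m i) ^ 2 := by
  rcases Nat.eq_zero_or_pos n with rfl | hn
  · exfalso
    simp [farObs] at h
    have := div_nonpos_of_nonpos_of_nonneg (show -(ρ / 4) ≤ 0 by linarith)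
      (show 0 ≤ ρ / 4 by linarith)
    linarith
  have hsn : 0 < √(n : ℝ) := Real.sqrt_pos.2 (Nat.cast_pos.2 hn)
  set A := √(∑ i, (ampA β J y (spins x) j i - bmean J y i) ^ 2)
  have h1 : 0 < (A / √n - ρ / 4) / (ρ / 4) := by
    by_contra hc
    simp only [farObs] at h
    rw [max_eq_left (not_lt.1 hc)] at h
    simp at h
  have h2 : ρ / 4 * √n < A := by
    rw [← lt_div_iff₀ hsn]
    linarith [(div_pos_iff_of_pos_right (by positivity : 0 < ρ / 4)).1 h1]
  have h3 : √(∑ i, (bmean J y i - m i) ^ 2) ≤ ρ / 8 * √n := by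
    rw [Real.sqrt_le_left (by positivity), mul_pow, Real.sq_sqrt (Nat.cast_nonneg n)]
    linarith
  have h4 := sqrt_sum_sq_add_le (fun i => ampA β J y (spins x) j i - m i)
    (fun i => m i - bmean J y i)
  simp only [sub_add_sub_cancel] at h4
  have e : ∑ i, (m i - bmean J y i) ^ 2 = ∑ i, (bmean J y i - m i) ^ 2 :=
    sum_congr rfl fun i _ => by ring
  rw [e] at h4
  have h5 : ρ / 8 * √n < √(∑ i, (ampA β J y (spins x) j i - m i) ^ 2) := by linarith
  have h6 := (Real.lt_sqrt (by positivity)).1 h5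
  rwa [mul_pow, Real.sq_sqrt (Nat.cast_nonneg n)] at h6

/-- The cutoff is one on the iterates far from a point near the mean. -/
theorem farObs_eq_one (hρ : 0 < ρ) {m y : Fin n → ℝ}
    (hm : ∑ i, (bmean J y i - m i) ^ 2 ≤ ρ ^ 2 * n / 64) {j : ℕ} {x : Fin n → Bool}
    (h : ρ ^ 2 * n < ∑ i, (ampA β J y (spins x) j i - m i) ^ 2) :
    farObs β ρ J j x y = 1 := by
  rcases Nat.eq_zero_or_pos n with rfl | hn
  · simp at h
  have hsn : 0 < √(n : ℝ) := Real.sqrt_pos.2 (Nat.cast_pos.2 hn)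
  have h1 : ρ * √n < √(∑ i, (ampA β J y (spins x) j i - m i) ^ 2) := by
    rw [Real.lt_sqrt (by positivity), mul_pow, Real.sq_sqrt (Nat.cast_nonneg n)]
    exact h
  have h3 : √(∑ i, (bmean J y i - m i) ^ 2) ≤ ρ / 8 * √n := by
    rw [Real.sqrt_le_left (by positivity), mul_pow, Real.sq_sqrt (Nat.cast_nonneg n)]
    linarith
  have h4 := sqrt_sum_sq_add_le (fun i => ampA β J y (spins x) j i - bmean J y i)
    (fun i => bmean J y i - m i)
  simp only [sub_add_sub_cancel] at h4
  have h2 : ρ / 2 ≤ √(∑ i, (ampA β J y (spins x) j i - bmean J y i) ^ 2) / √n := by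
    rw [le_div_iff₀ hsn]
    have : 0 ≤ ρ * √n := by positivity
    linarith
  refine min_eq_left (le_max_of_le_right ?_)
  rw [one_le_div (by positivity)]
  linarith

end Vale.Agent.P150.Beta1.PassTwo
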