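import Vale.Agent.P150.Beta1.PassTwo.Planted
import Vale.Agent.P150.Beta1.LargeField

/-!
# The last time: large fields, and the crude bounds on an event of probability `exp (-6 n)`
-/

namespace Vale.Agent.P150.Beta1.PassTwo

open MeasureTheory ProbabilityTheory Finset Function Real
open Local (wgt fld p0)

variable {n : ℕ}

/-- Fields with more than `ε n` sites below `A`. -/
def smallSet (A ε : ℝ) (n : ℕ) : Set (Fin n → ℝ) :=
  {y | ε * n < ((univ.filter fun i => |y i| < A).card : ℝ)}

lemma measurableSet_smallSet (A ε : ℝ) (n : ℕ) : MeasurableSet (smallSet A ε n) := by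
  have e : smallSet A ε n
      = {y | ε * n < ∑ i, {z : Fin n → ℝ | |z i| < A}.indicator (fun _ => (1:ℝ)) y} := by
    ext y
    simp only [smallSet, Set.mem_ofPred_eq, Set.indicator_apply, sum_boole]
  rw [e]
  exact measurableSet_lt measurable_const (Finset.measurable_sum _ fun i _ =>
    measurable_const.indicator (measurableSet_lt (by fun_prop) measurable_const))

lemma gaussianReal_abs_tail {t : ℝ} (ht : 0 ≤ t) :
    gaussianReal 0 1 {s : ℝ | t < |s|} ≤ ENNReal.ofReal (2 * exp (-t ^ 2 / 4)) := by
  have hm : MeasurableSet {s : ℝ | t < |s|} :=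
    measurableSet_lt measurable_const (by fun_prop)
  have h := (measurePreserving_eval (fun _ : Fin 1 => gaussianReal 0 1) 0).measure_preimage
    hm.nullMeasurableSet
  rw [← h]
  exact gauss_coord_tail (0 : Fin 1) ht

/-- Planted at any configuration, the field at a large time has few small sites. -/
lemma smallSet_tail {A ε T : ℝ} (hA : 0 ≤ A) (hε : 0 < ε) (hT : 2 * A + 32 + 256 / ε ≤ T)
    (x : Fin n → Bool) :
    (gauss (Fin n)).real {ξ | (fun i => T * spins x i + √T * ξ i) ∈ smallSet A ε n}
      ≤ exp (-(7 * (n : ℝ))) := by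
  have h256 : 0 < 256 / ε := by positivity
  have hT32 : 32 ≤ T := by linarith
  have hεT : 256 ≤ ε * T := by
    have := mul_le_mul_of_nonneg_left (show 256 / ε ≤ T by linarith) hε.le
    rwa [mul_div_cancel₀ _ hε.ne'] at this
  set F := univ.filter fun S : Finset (Fin n) => ε * n < (S.card : ℝ)
  set t := √T / 2
  let B : Finset (Fin n) → Set (Fin n → ℝ) := fun S =>
    Set.univ.pi fun i => if i ∈ S then {s : ℝ | t < |s|} else Set.univ
  have hsub : {ξ | (fun i => T * spins x i + √T * ξ i) ∈ smallSet A ε n} ⊆ ⋃ S ∈ F, B S := by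
    intro ξ hξ
    set S := univ.filter fun i => |T * spins x i + √T * ξ i| < A
    refine Set.mem_biUnion (x := S) (mem_filter.2 ⟨mem_univ _, hξ⟩) fun i _ => ?_
    dsimp only
    split_ifs with hi
    · have h1 : |T * spins x i + √T * ξ i| < A := (mem_filter.1 hi).2
      show t < |ξ i|
      have h2 : T - √T * |ξ i| ≤ |T * spins x i + √T * ξ i| := by
        have e : |T * spins x i| = T := by
          rw [abs_mul, abs_of_nonneg (show 0 ≤ T by linarith)]
          rcases spin_cases (x i) with h | h <;> simp [spins, h]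
        have h := abs_sub_abs_le_abs_sub (T * spins x i) (-(√T * ξ i))
        rw [abs_neg, abs_mul (√T), abs_of_nonneg (Real.sqrt_nonneg T), sub_neg_eq_add, e] at h
        exact h
      refine lt_of_mul_lt_mul_left (a := √T) ?_ (Real.sqrt_nonneg T)
      rw [show √T * t = T / 2 by simp only [t]; rw [← mul_div_assoc, Real.mul_self_sqrt (by linarith)]]
      linarith
    · exact Set.mem_univ _
  have hB : ∀ S ∈ F, gauss (Fin n) (B S) ≤ ENNReal.ofReal (exp (-(8 * (n : ℝ)))) := by
    intro S hS
    rw [gauss, Measure.pi_pi]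
    calc ∏ i, gaussianReal 0 1 (if i ∈ S then {s : ℝ | t < |s|} else Set.univ)
        = ∏ i ∈ S, gaussianReal 0 1 {s : ℝ | t < |s|} := by
          simp only [apply_ite (gaussianReal 0 1), measure_univ, prod_ite_mem, univ_inter]
      _ ≤ ∏ _i ∈ S, ENNReal.ofReal (exp (-(T / 32))) := prod_le_prod' fun i _ => by
          refine (gaussianReal_abs_tail (by positivity)).trans (ENNReal.ofReal_le_ofReal ?_)
          have e : -t ^ 2 / 4 = -(T / 16) := by
            simp only [t, div_pow, Real.sq_sqrt (show 0 ≤ T by linarith)]; ring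
          rw [e]
          calc 2 * exp (-(T / 16)) ≤ exp 1 * exp (-(T / 16)) :=
                mul_le_mul_of_nonneg_right (by linarith [add_one_le_exp (1:ℝ)]) (exp_pos _).le
            _ ≤ _ := by rw [← exp_add, exp_le_exp]; linarith
      _ ≤ _ := by
          rw [prod_const, ← ENNReal.ofReal_pow (exp_pos _).le, ← exp_nat_mul]
          refine ENNReal.ofReal_le_ofReal (exp_le_exp.2 ?_)
          have h1 := mul_le_mul_of_nonneg_right (mem_filter.1 hS).2.le (show 0 ≤ T / 32 by linarith)
          have h2 := mul_le_mul_of_nonneg_right hεT (show (0:ℝ) ≤ n / 32 by positivity)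
          linarith
  rw [measureReal_def]
  refine ENNReal.toReal_le_of_le_ofReal (exp_pos _).le ((measure_mono hsub).trans
    ((measure_biUnion_finset_le _ _).trans ((sum_le_sum hB).trans ?_)))
  rw [sum_const, nsmul_eq_mul, ← ENNReal.ofReal_natCast, ← ENNReal.ofReal_mul (Nat.cast_nonneg _)]
  refine ENNReal.ofReal_le_ofReal ?_
  have hc : (F.card : ℝ) ≤ exp n := by
    refine (Nat.cast_le.2 (card_le_univ F)).trans ?_
    rw [Fintype.card_finset, Fintype.card_fin]
    push_cast
    calc (2:ℝ) ^ n ≤ exp 1 ^ n :=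
          pow_le_pow_left₀ zero_le_two (by linarith [add_one_le_exp (1:ℝ)]) n
      _ = _ := by rw [← exp_nat_mul, mul_one]
  refine (mul_le_mul_of_nonneg_right hc (exp_pos _).le).trans ?_
  rw [← exp_add, exp_le_exp]
  linarith

variable {J : Fin n → Fin n → ℝ} {A ε T : ℝ}

/-- The planted weight of the small set, through a nonnegative observable of the spins. -/
lemma integral_smallSet_le (hA : 0 ≤ A) (hε : 0 < ε) (hT : 2 * A + 32 + 256 / ε ≤ T)
    (c d : ℝ) (hd : 0 ≤ d) (ψ : (Fin n → Bool) → ℝ) (hψ : ∀ x, 0 ≤ ψ x) :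
    Integrable (fun g => wgt J T g * mean (gibbs J (fld T g))
      fun x => (c + d * (smallSet A ε n).indicator 1 (fld T g)) * ψ x) (gauss (Fin n)) ∧
    ∫ g, wgt J T g * mean (gibbs J (fld T g))
      (fun x => (c + d * (smallSet A ε n).indicator 1 (fld T g)) * ψ x) ∂gauss (Fin n)
      ≤ (c + d * exp (-(7 * (n : ℝ)))) * mean (p0 J) ψ := by
  have hT0 : 0 ≤ T := by have : 0 < 256 / ε := by positivity
                         linarith
  set S := smallSet A ε n
  have hI : Measurable fun g : Fin n → ℝ => S.indicator (1 : (Fin n → ℝ) → ℝ) (fld T g) :=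
    (measurable_one.indicator (measurableSet_smallSet A ε n)).comp (continuous_fld T).measurable
  have hI1 : ∀ g, |S.indicator (1 : (Fin n → ℝ) → ℝ) (fld T g)| ≤ 1 := fun g => by
    by_cases h : fld T g ∈ S <;> simp [h]
  obtain ⟨h1, h2⟩ := integral_wgt_mean J hT0
    (fun g x => (c + d * S.indicator 1 (fld T g)) * ψ x)
    (fun x => ((hI.const_mul d).const_add c).mul_const _)
    (B := (|c| + d) * ∑ x, ψ x) fun g x => by
      rw [abs_mul, abs_of_nonneg (hψ x)]
      refine mul_le_mul ((abs_add_le _ _).trans (add_le_add le_rfl ?_))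
        (single_le_sum (fun y _ => hψ y) (mem_univ x)) (hψ x) (by positivity)
      rw [abs_mul, abs_of_nonneg hd]
      exact mul_le_of_le_one_right hd (hI1 g)
  refine ⟨h1, ?_⟩
  rw [h2]
  simp only [mean, mul_sum]
  refine sum_le_sum fun x _ => ?_
  have e : plantedMean T (fun g => (c + d * S.indicator 1 (fld T g)) * ψ x) x
      = (c + d * plantedMean T (fun g => S.indicator 1 (fld T g)) x) * ψ x := by
    simp only [plantedMean, ← mul_assoc, mul_add]
    rw [integral_mul_const, integral_add ((integrable_shiftW _).mul_const c)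
      (integrable_mul_bdd ((integrable_shiftW _).mul_const d) hI hI1), integral_mul_const,
      integral_shiftW, one_mul]
    congr 2
    rw [← integral_const_mul]
    exact integral_congr_ae (ae_of_all _ fun g => by ring)
  rw [e, plantedMean_indicator hT0 x (measurableSet_smallSet A ε n)]
  have := mul_le_mul_of_nonneg_left (mul_le_mul_of_nonneg_right
    (add_le_add (le_refl c) (mul_le_mul_of_nonneg_left (smallSet_tail hA hε hT x) hd)) (hψ x))
    (Local.p0_pos J x).le
  linarith

/-- Entropy left at the last time. -/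
theorem hEntropy_top_le {K : ℝ}
    (hop : ∀ a : Fin n → ℝ, |∑ i, ∑ j, J i j * a i * a j| ≤ 3 * ∑ i, a i ^ 2)
    (hlarge : ∀ y, ((univ.filter fun i => |y i| < A).card : ℝ) ≤ ε * n → EntFactor (gibbs J y) K)
    (hK : 0 ≤ K) (hA : 0 ≤ A) (hε : 0 < ε) (hT : 2 * A + 32 + 256 / ε ≤ T)
    {F : (Fin n → Bool) → ℝ} (hF : ∀ x, 0 < F x) :
    Local.hEntropy J F T ≤ (K + 1) * ∑ i, siteEnt (gibbs J 0) i F := by
  set G := fun i => resample (p0 J) i F
  have hG : ∀ i x, 0 < G i x := fun i => resample_pos (IsWeight.gibbs J 0) hF i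
  set ψ := fun x => ∑ i, Vale.Agent.P150.psi (F x) (G i x)
  have hψ : ∀ x, 0 ≤ ψ x := fun x => sum_nonneg fun i _ => Vale.Agent.P150.psi_nonneg (hF x) (hG i x)
  obtain ⟨hi, hle⟩ := integral_smallSet_le (J := J) (n := n) hA hε hT K (exp (6 * (n : ℝ)))
    (exp_pos _).le ψ hψ
  have hT0 : 0 ≤ T := by have : 0 < 256 / ε := by positivity
                         linarith
  have hsum : mean (p0 J) ψ = ∑ i, siteEnt (gibbs J 0) i F := by
    simp only [mean, ψ, mul_sum, siteEnt, G, p0]
    exact sum_comm
  refine (integral_mono_of_nonneg (ae_of_all _ fun g => mul_nonneg (Local.wgt_pos J hT0 g).le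
    (ent_nonneg (IsWeight.gibbs _ _) hF)) hi (ae_of_all _ fun g => ?_)).trans
    (hle.trans ?_)
  · refine mul_le_mul_of_nonneg_left ?_ (Local.wgt_pos J hT0 g).le
    set y := fld T g
    have hs : ∑ i, siteEnt (gibbs J y) i F ≤ mean (gibbs J y) ψ := by
      refine (sum_le_sum fun i _ => siteEnt_le (IsWeight.gibbs J y) hF i (hG i)
        fun x b => resample_update_self _ i F x b).trans (le_of_eq ?_)
      simp only [mean, ψ, mul_sum]
      exact sum_comm
    set k := K + exp (6 * (n : ℝ)) * (smallSet A ε n).indicator 1 y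
    have hk : EntFactor (gibbs J y) k := by
      intro f hf
      have h0 : 0 ≤ ∑ i, siteEnt (gibbs J y) i f :=
        sum_nonneg fun i _ => siteEnt_nonneg (IsWeight.gibbs _ _) hf i
      by_cases hy : y ∈ smallSet A ε n
      · refine (entFactor_crude hop y f hf).trans (mul_le_mul_of_nonneg_right ?_ h0)
        simp [k, hy, hK]
      · refine (hlarge y (not_lt.1 hy) f hf).trans (mul_le_mul_of_nonneg_right ?_ h0)
        simp [k, hy]
    have hk0 : 0 ≤ k := add_nonneg hK (mul_nonneg (exp_pos _).le
      (Set.indicator_nonneg (fun _ _ => zero_le_one) _))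
    refine ((hk F hF).trans (mul_le_mul_of_nonneg_left hs hk0)).trans (le_of_eq ?_)
    simp only [mean, mul_sum, k]
    exact sum_congr rfl fun x _ => by ring
  · rw [hsum]
    refine mul_le_mul_of_nonneg_right (add_le_add le_rfl ?_)
      (sum_nonneg fun i _ => siteEnt_nonneg (IsWeight.gibbs _ _) hF i)
    rw [← exp_add, exp_le_one_iff]
    linarith [(Nat.cast_nonneg n : (0:ℝ) ≤ n)]

/-- Variance left at the last time. -/
theorem hVar_top_le {κ : ℝ}
    (hlarge : ∀ y, ((univ.filter fun i => |y i| < A).card : ℝ) ≤ ε * n →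
      ∀ f : (Fin n → Bool) → ℝ, κ * variance (gibbs J y) f ≤ dirichlet (gibbs J y) f)
    (hκ : 0 < κ) (hA : 0 ≤ A) (hε : 0 < ε) (hT : 2 * A + 32 + 256 / ε ≤ T)
    {f : (Fin n → Bool) → ℝ} {R : ℝ} (hf : ∀ x, |f x| ≤ R) :
    Local.hVar J f T ≤ 1 / κ * dirichlet (gibbs J 0) f + R ^ 2 * exp (-(7 * (n : ℝ))) := by
  set G := fun i => resample (p0 J) i f
  set ψ := fun x => ∑ i, (f x - G i x) ^ 2
  obtain ⟨hi1, hle1⟩ := integral_smallSet_le (J := J) (n := n) hA hε hT (1 / κ) 0 le_rfl ψ
    fun x => sum_nonneg fun i _ => sq_nonneg _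
  obtain ⟨hi2, hle2⟩ := integral_smallSet_le (J := J) (n := n) hA hε hT 0 (R ^ 2) (sq_nonneg R)
    (fun _ => 1) fun x => zero_le_one
  have hT0 : 0 ≤ T := by have : 0 < 256 / ε := by positivity
                         linarith
  have hD : dirichlet (gibbs J 0) f = mean (p0 J) ψ := by
    rw [Local.dirichlet_eq_sub (IsWeight.gibbs J 0)]
    simp only [mean, ψ, mul_sum, G, p0]
    exact sum_comm
  refine (integral_mono_of_nonneg (ae_of_all _ fun g => mul_nonneg (Local.wgt_pos J hT0 g).le
    (sum_nonneg fun x _ => mul_nonneg (gibbs_pos x).le (sq_nonneg _))) (hi1.fun_add hi2)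
    (ae_of_all _ fun g => ?_)).trans ?_
  · set y := fld T g
    have hd : dirichlet (gibbs J y) f ≤ mean (gibbs J y) ψ := by
      refine (Local.dirichlet_le_sub (IsWeight.gibbs J y) G
        fun i x b => resample_update_self _ i f x b).trans (le_of_eq ?_)
      simp only [mean, ψ, mul_sum]
      exact sum_comm
    beta_reduce
    rw [← mul_add]
    refine mul_le_mul_of_nonneg_left ?_ (Local.wgt_pos J hT0 g).le
    have hψ0 : 0 ≤ mean (gibbs J y) ψ := sum_nonneg fun x _ =>
      mul_nonneg (gibbs_pos x).le (sum_nonneg fun i _ => sq_nonneg _)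
    simp only [mean, zero_mul, zero_add, add_zero, mul_one, ← sum_mul, gibbs_sum, one_mul]
    rw [show ∑ x, gibbs J y x * (1 / κ * ψ x) = 1 / κ * mean (gibbs J y) ψ by
      simp only [mean, mul_sum]; exact sum_congr rfl fun x _ => by ring]
    change Vale.Agent.P150.variance (gibbs J y) f ≤
      1 / κ * mean (gibbs J y) ψ + R ^ 2 * (smallSet A ε n).indicator 1 y
    by_cases hy : y ∈ smallSet A ε n
    · simp only [Set.indicator_of_mem hy, Pi.one_apply, mul_one]
      have hv : variance (gibbs J y) f ≤ R ^ 2 := by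
        rw [Local.variance_eq' (IsWeight.gibbs J y)]
        refine (sub_le_self _ (sq_nonneg _)).trans ?_
        calc mean (gibbs J y) (fun x => f x ^ 2) ≤ ∑ x, gibbs J y x * R ^ 2 :=
              sum_le_sum fun x _ => mul_le_mul_of_nonneg_left
                (by beta_reduce; rw [← sq_abs (f x)]; exact pow_le_pow_left₀ (abs_nonneg _) (hf x) 2)
                (gibbs_pos x).le
          _ = _ := by rw [← sum_mul, gibbs_sum, one_mul]
      have := mul_nonneg (one_div_pos.2 hκ).le hψ0
      linarith
    · rw [Set.indicator_of_notMem hy, mul_zero, add_zero]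
      rw [div_mul_eq_mul_div, one_mul, le_div_iff₀ hκ]
      linarith [hlarge y (not_lt.1 hy) f]
  · rw [integral_add hi1 hi2, hD]
    have : mean (p0 J) (fun _ => (1:ℝ)) = 1 := by simp [mean, p0, gibbs_sum]
    rw [this] at hle2
    linarith

end Vale.Agent.P150.Beta1.PassTwo
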