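import Vale.Agent.P150.Entropy
import Vale.Agent.P150.Beta1.Local.Ising
import Vale.Agent.P150.Beta1.Defs

/-!
# Tilts: Dirichlet forms of products and exponentials, and covariances from stable means
-/

namespace Vale.Agent.P150.Beta1.PassTwo

open Finset Function Real

variable {ι : Type*} [Fintype ι] [DecidableEq ι] {J : ι → ι → ℝ} {h : ι → ℝ}

lemma dirichlet_sqrt_le_siteEnt {ρ F : (ι → Bool) → ℝ} (hρ : IsWeight ρ) (hF : ∀ x, 0 < F x) :
    dirichlet ρ (fun x => √(F x)) ≤ ∑ i, siteEnt ρ i F := by
  refine (Local.dirichlet_le_sub hρ (fun i x => √(resample ρ i F x))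
    fun i x b => by rw [resample_update_self]).trans (sum_le_sum fun i _ => ?_)
  exact sum_le_sum fun x _ => mul_le_mul_of_nonneg_left
    (sqrt_sub_sq_le_psi (hF x) (resample_pos hρ hF i x)) (hρ.1 x).le

/-- Variance times both values of a positive function, against its conditional mean. -/
lemma var_mul_le_resample (hsymm : ∀ i j, J i j = J j i) (hdiag : ∀ i, J i i = 0) (i : ι)
    {F : (ι → Bool) → ℝ} (hF : ∀ x, 0 ≤ F x) (x : ι → Bool) :
    localVar J h i x * (F (update x i true) + F (update x i false))
      ≤ 4 * resample (gibbs J h) i F x := by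
  rw [resample_eq hsymm hdiag, localVar]
  set t := localMean J h i x
  obtain ⟨h1, h2⟩ := abs_lt.1 (abs_tanh_lt_one (localField J h i x))
  change -1 < t at h1
  change t < 1 at h2
  have a1 : 0 ≤ (1 + t) * F (update x i true) * (1 + t) :=
    mul_nonneg (mul_nonneg (by linarith) (hF _)) (by linarith)
  have a2 : 0 ≤ (1 - t) * F (update x i false) * (1 - t) :=
    mul_nonneg (mul_nonneg (by linarith) (hF _)) (by linarith)
  linarith

lemma sum_var_mul_le (hsymm : ∀ i j, J i j = J j i) (hdiag : ∀ i, J i i = 0)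
    {F : (ι → Bool) → ℝ} (hF : ∀ x, 0 ≤ F x) (w : ι → (ι → Bool) → ℝ)
    (hw : ∀ i x b, w i (update x i b) = w i x) (hw0 : ∀ i x, 0 ≤ w i x) {M : ℝ}
    (hM : ∀ x, ∑ i, w i x ≤ M) :
    ∑ i, mean (gibbs J h) (fun x => localVar J h i x
        * (F (update x i true) + F (update x i false)) * w i x)
      ≤ 4 * (M * mean (gibbs J h) F) := by
  calc ∑ i, mean (gibbs J h) (fun x => localVar J h i x
        * (F (update x i true) + F (update x i false)) * w i x)
      ≤ ∑ i, 4 * mean (gibbs J h) (fun x => w i x * resample (gibbs J h) i F x) := by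
        refine sum_le_sum fun i _ => ?_
        simp only [mean, mul_sum]
        refine sum_le_sum fun x _ => ?_
        have := mul_le_mul_of_nonneg_left
          (mul_le_mul_of_nonneg_right (var_mul_le_resample (h := h) hsymm hdiag i hF x) (hw0 i x))
          (gibbs_pos (J := J) (h := h) x).le
        linarith
    _ = 4 * mean (gibbs J h) (fun x => (∑ i, w i x) * F x) := by
        simp only [mean_resample (IsWeight.gibbs J h) _ F _ (hw _), ← mul_sum]
        simp only [mean, sum_mul, mul_sum]
        rw [sum_comm]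
    _ ≤ 4 * (M * mean (gibbs J h) F) := by
        refine mul_le_mul_of_nonneg_left ?_ (by norm_num)
        simp only [mean, mul_sum]
        refine sum_le_sum fun x _ => ?_
        have := mul_le_mul_of_nonneg_left (mul_le_mul_of_nonneg_right (hM x) (hF x))
          (gibbs_pos (J := J) (h := h) x).le
        linarith

/-- Dirichlet form of `√F s` for a slow multiplier `s`. -/
theorem dirichlet_sqrt_mul_le (hsymm : ∀ i j, J i j = J j i) (hdiag : ∀ i, J i i = 0)
    {F s : (ι → Bool) → ℝ} (hF : ∀ x, 0 ≤ F x) (hs : ∀ x, |s x| ≤ 1) {M : ℝ}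
    (hM : ∀ x, ∑ i, deriv2 i s x ^ 2 ≤ M) :
    dirichlet (gibbs J h) (fun x => √(F x) * s x)
      ≤ 2 * dirichlet (gibbs J h) (fun x => √(F x)) + 4 * (M * mean (gibbs J h) F) := by
  refine le_trans ?_ (add_le_add le_rfl (sum_var_mul_le hsymm hdiag hF
    (fun i x => deriv2 i s x ^ 2) (fun i x b => by rw [deriv2_update_self])
    (fun i x => sq_nonneg _) hM))
  rw [dirichlet_eq_dirWeight hsymm hdiag, dirichlet_eq_dirWeight hsymm hdiag, mul_sum,
    ← sum_add_distrib]
  refine sum_le_sum fun i _ => ?_
  simp only [mean, mul_sum, ← sum_add_distrib]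
  refine sum_le_sum fun x _ => ?_
  have hv : 0 ≤ localVar J h i x := sub_nonneg.2 (tanh_sq_lt_one _).le
  simp only [dirWeight]
  set a := √(F (update x i true)) with ha
  set b := √(F (update x i false)) with hb
  set p := s (update x i true)
  set q := s (update x i false)
  rw [show F (update x i true) = a ^ 2 from (Real.sq_sqrt (hF _)).symm,
    show F (update x i false) = b ^ 2 from (Real.sq_sqrt (hF _)).symm]
  simp only [deriv2]
  rw [← ha, ← hb]
  have hpq : ((p + q) / 2) ^ 2 ≤ 1 := by
    rw [sq_le_one_iff_abs_le_one, abs_div, abs_two, div_le_one two_pos]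
    exact (abs_add_le _ _).trans (by linarith [hs (update x i true), hs (update x i false)])
  have key : ((a * p - b * q) / 2) ^ 2
      ≤ 2 * ((a - b) / 2) ^ 2 + (a ^ 2 + b ^ 2) * ((p - q) / 2) ^ 2 := by
    have e : (a * p - b * q) / 2 = (a - b) / 2 * ((p + q) / 2) + (a + b) / 2 * ((p - q) / 2) := by
      ring
    rw [e]
    refine add_sq_le.trans ?_
    rw [mul_pow, mul_pow]
    have := mul_le_mul_of_nonneg_left hpq (sq_nonneg ((a - b) / 2))
    have := mul_le_mul_of_nonneg_right (show 2 * ((a + b) / 2) ^ 2 ≤ a ^ 2 + b ^ 2 by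
      linarith [sq_nonneg (a - b)]) (sq_nonneg ((p - q) / 2))
    linarith
  have := mul_le_mul_of_nonneg_left (mul_le_mul_of_nonneg_left key hv)
    (gibbs_pos (J := J) (h := h) x).le
  linarith

lemma exp_sub_sq_le (p q : ℝ) :
    (exp p - exp q) ^ 2 ≤ (p - q) ^ 2 * (exp (2 * p) + exp (2 * q)) := by
  wlog hpq : q ≤ p generalizing p q
  · have := this q p (le_of_not_ge hpq)
    linarith
  have h1 : exp p - exp q ≤ (p - q) * exp p := by
    have := mul_le_mul_of_nonneg_right (add_one_le_exp (q - p)) (exp_pos p).le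
    rw [← exp_add, sub_add_cancel] at this
    linarith
  have h2 := pow_le_pow_left₀ (sub_nonneg.2 (exp_le_exp.2 hpq)) h1 2
  rw [mul_pow, sq (exp p), ← exp_add, ← two_mul] at h2
  have := mul_nonneg (sq_nonneg (p - q)) (exp_pos (2 * q)).le
  linarith

/-- Exponential tilts of bounded length have bounded Dirichlet energy. -/
theorem tdir_exp_le (hsymm : ∀ i j, J i j = J j i) (hdiag : ∀ i, J i i = 0) {a : ι → ℝ}
    (ha : ∑ i, a i ^ 2 ≤ 1) : tdir (gibbs J h) (fun x => exp (linObs a x)) ≤ 1 := by
  rw [tdir, div_le_one (mean_pos (IsWeight.gibbs J h) fun x => exp_pos _)]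
  have hb := sum_var_mul_le (J := J) (h := h) hsymm hdiag (F := fun x => exp (linObs a x))
    (fun x => (exp_pos _).le) (fun i _ => a i ^ 2 / 4) (fun _ _ _ => rfl)
    (fun i _ => by positivity) (M := 1 / 4) fun _ => by rw [← sum_div]; linarith
  rw [← mul_assoc, show (4 : ℝ) * (1 / 4) = 1 by norm_num, one_mul] at hb
  refine le_trans ?_ hb
  rw [dirichlet_eq_dirWeight hsymm hdiag]
  refine sum_le_sum fun i _ => sum_le_sum fun x _ =>
    mul_le_mul_of_nonneg_left ?_ (gibbs_pos x).le
  have hv : 0 ≤ localVar J h i x := sub_nonneg.2 (tanh_sq_lt_one _).le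
  beta_reduce
  rw [dirWeight, mul_assoc]
  refine mul_le_mul_of_nonneg_left ?_ hv
  set p := linObs a (update x i true)
  set q := linObs a (update x i false)
  have hd : p - q = 2 * a i := by
    simp only [p, q, linObs, ← sum_sub_distrib]
    rw [sum_eq_single i (fun k _ hk => by simp [update_of_ne hk]) (by simp)]
    simp [spin]
    ring
  have e := exp_sub_sq_le (p / 2) (q / 2)
  rw [show (p / 2 - q / 2) ^ 2 = (p - q) ^ 2 / 4 by ring, hd, show 2 * (p / 2) = p by ring,
    show 2 * (q / 2) = q by ring] at e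
  simp only [deriv2, ← exp_half]
  linarith

/-- Bounded means under exponential tilts bound the covariance operator. -/
theorem variance_linObs_le {C : ℝ}
    (hb : ∀ a : ι → ℝ, ∑ i, a i ^ 2 ≤ 1 →
      ∑ k, (tmean (gibbs J h) (fun x => exp (linObs a x)) (fun x => spins x k)
        - mean (gibbs J h) fun x => spins x k) ^ 2 ≤ C)
    (a : ι → ℝ) :
    variance (gibbs J h) (linObs a) ≤ 2 * exp ((1 + C) / 2) * ∑ i, a i ^ 2 := by
  set ρ := gibbs J h
  have hρ : IsWeight ρ := IsWeight.gibbs J h
  set b : ι → ℝ := fun k => mean ρ fun x => spins x k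
  have hlin : ∀ (c : ι → ℝ) (w : (ι → Bool) → ℝ),
      ∑ x, w x * linObs c x = ∑ k, c k * ∑ x, w x * spins x k := fun c w => by
    simp only [linObs, mul_sum]
    rw [sum_comm]
    exact sum_congr rfl fun k _ => sum_congr rfl fun x _ => by simp only [spins]; ring
  have mgf : ∀ c : ι → ℝ, ∑ i, c i ^ 2 ≤ 1 →
      mean ρ (fun x => exp (linObs c x - mean ρ (linObs c))) ≤ exp ((1 + C) / 2) := by
    intro c hc
    set F : (ι → Bool) → ℝ := fun x => exp (linObs c x)
    have hF : ∀ x, 0 < F x := fun x => exp_pos _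
    have hm := mean_pos hρ hF
    have h1 := ent_nonneg hρ hF
    rw [ent_eq hρ hF, sub_nonneg] at h1
    simp only [F, log_exp] at h1
    change mean ρ F * log (mean ρ F) ≤ _ at h1
    have h2 : ∑ x, ρ x * (F x * linObs c x)
        = mean ρ F * ∑ k, c k * tmean ρ F fun x => spins x k := by
      simp only [← mul_assoc]
      rw [hlin c fun x => ρ x * F x, mul_sum]
      refine sum_congr rfl fun k _ => ?_
      simp only [tmean]
      rw [mul_left_comm, mul_div_cancel₀ _ hm.ne']
      simp only [mean, mul_assoc]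
    rw [h2] at h1
    have h3 : log (mean ρ F) ≤ ∑ k, c k * tmean ρ F fun x => spins x k :=
      le_of_mul_le_mul_left h1 hm
    have h4 : mean ρ (fun x => exp (linObs c x - mean ρ (linObs c)))
        = exp (log (mean ρ F) - mean ρ (linObs c)) := by
      rw [exp_sub, exp_log hm]
      simp only [mean, F, exp_sub, mul_div_assoc', ← sum_div]
    rw [h4, exp_le_exp]
    have h5 : mean ρ (linObs c) = ∑ k, c k * b k := hlin c ρ
    have h6 : ∑ k, c k * ((tmean ρ F fun x => spins x k) - b k)
        ≤ ∑ k, (c k ^ 2 + ((tmean ρ F fun x => spins x k) - b k) ^ 2) / 2 :=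
      sum_le_sum fun k _ => by
        linarith [two_mul_le_add_sq (c k) ((tmean ρ F fun x => spins x k) - b k)]
    rw [← sum_div, sum_add_distrib] at h6
    simp only [mul_sub, sum_sub_distrib] at h6
    have := hb c hc
    change ∑ k, (tmean ρ F (fun x => spins x k) - b k) ^ 2 ≤ C at this
    linarith
  have unit : ∀ c : ι → ℝ, ∑ i, c i ^ 2 ≤ 1 → variance ρ (linObs c) ≤ 2 * exp ((1 + C) / 2) := by
    intro c hc
    have g1 := mgf c hc
    have g2 := mgf (fun i => -c i) (by simpa using hc)
    have en : ∀ x, linObs (fun i => -c i) x = -linObs c x := fun x => by simp [linObs]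
    have em : mean ρ (linObs fun i => -c i) = -mean ρ (linObs c) := by
      simp [mean, en]
    simp only [em, en, sub_neg_eq_add] at g2
    calc variance ρ (linObs c) ≤ mean ρ (fun x => exp (linObs c x - mean ρ (linObs c))
          + exp (-linObs c x + mean ρ (linObs c))) := by
          refine sum_le_sum fun x _ => mul_le_mul_of_nonneg_left ?_ (hρ.1 x).le
          beta_reduce
          set z := linObs c x - mean ρ (linObs c)
          rw [show -linObs c x + mean ρ (linObs c) = -z by simp only [z]; ring]
          have := one_add_sq_half_le_cosh z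
          rw [cosh_eq] at this
          linarith
      _ = mean ρ (fun x => exp (linObs c x - mean ρ (linObs c)))
          + mean ρ (fun x => exp (-linObs c x + mean ρ (linObs c))) := by
          simp only [mean, mul_add, sum_add_distrib]
      _ ≤ _ := by linarith
  rcases (sum_nonneg fun i (_ : i ∈ univ) => sq_nonneg (a i)).eq_or_lt with h0 | h0
  · have hz : ∀ i, a i = 0 := fun i =>
      pow_eq_zero_iff two_ne_zero |>.1
        ((sum_eq_zero_iff_of_nonneg fun k _ => sq_nonneg (a k)).1 h0.symm i (mem_univ i))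
    have e : linObs a = fun _ => 0 := by funext x; simp [linObs, hz]
    rw [← h0, mul_zero, e]
    simp [variance, mean]
  · set r := √(∑ i, a i ^ 2)
    have hr : 0 < r := Real.sqrt_pos.2 h0
    have hu := unit (fun i => 1 / r * a i) (by
      simp only [mul_pow, ← mul_sum]
      rw [one_div, inv_pow, Real.sq_sqrt h0.le, inv_mul_cancel₀ h0.ne'])
    have e : variance ρ (linObs fun i => 1 / r * a i) = 1 / r ^ 2 * variance ρ (linObs a) := by
      simp only [variance, mean, linObs_smul]
      rw [mul_sum]
      refine sum_congr rfl fun x _ => ?_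
      rw [show ∑ y, ρ y * (1 / r * linObs a y) = 1 / r * ∑ y, ρ y * linObs a y by
        rw [mul_sum]; exact sum_congr rfl fun y _ => by ring]
      generalize ∑ y, ρ y * linObs a y = Mn
      field_simp
    rw [e, Real.sq_sqrt h0.le, div_mul_eq_mul_div, one_mul, div_le_iff₀ h0] at hu
    exact hu

/-- The covariance vector against the variance. -/
theorem sum_cov_sq_le_variance {K : ℝ} (hK : 0 < K)
    (hvar : ∀ a : ι → ℝ, variance (gibbs J h) (linObs a) ≤ K * ∑ i, a i ^ 2)
    (f : (ι → Bool) → ℝ) :
    ∑ k, (mean (gibbs J h) (fun x => f x * spins x k)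
        - mean (gibbs J h) f * mean (gibbs J h) fun x => spins x k) ^ 2
      ≤ K * variance (gibbs J h) f := by
  set ρ := gibbs J h
  have hρ : IsWeight ρ := IsWeight.gibbs J h
  set c : ι → ℝ := fun k => mean ρ (fun x => f x * spins x k) - mean ρ f * mean ρ fun x => spins x k
  set S := ∑ k, c k ^ 2
  have hS : S = ∑ x, ρ x * ((f x - mean ρ f) * (linObs c x - mean ρ (linObs c))) := by
    have e1 : ∀ x, ρ x * ((f x - mean ρ f) * (linObs c x - mean ρ (linObs c)))
        = ρ x * (f x - mean ρ f) * linObs c x - mean ρ (linObs c) * (ρ x * f x)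
          + mean ρ (linObs c) * mean ρ f * ρ x := fun x => by ring
    simp only [e1, sum_add_distrib, sum_sub_distrib, ← mul_sum, hρ.2]
    simp only [mul_one, show ∑ x, ρ x * f x = mean ρ f from rfl, sub_add_cancel]
    simp only [linObs, mul_sum]
    rw [sum_comm]
    refine sum_congr rfl fun k _ => ?_
    calc c k ^ 2 = c k * (mean ρ (fun x => f x * spins x k)
          - mean ρ f * mean ρ fun x => spins x k) := sq _
      _ = _ := by
          generalize mean ρ f = mf
          simp only [mean, mul_sub, mul_sum]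
          rw [← sum_sub_distrib]
          exact sum_congr rfl fun x _ => by simp only [spins]; ring
  have key : ∀ x, 2 * (ρ x * ((f x - mean ρ f) * (linObs c x - mean ρ (linObs c))))
      ≤ K * (ρ x * (f x - mean ρ f) ^ 2)
        + 1 / K * (ρ x * (linObs c x - mean ρ (linObs c)) ^ 2) := fun x => by
    have h1 := mul_nonneg (hρ.1 x).le (div_nonneg (sq_nonneg (K * (f x - mean ρ f)
      - (linObs c x - mean ρ (linObs c)))) hK.le)
    refine sub_nonneg.1 (h1.trans_eq ?_)
    field_simp
    ring
  have h2 := sum_le_sum fun x (_ : x ∈ univ) => key x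
  rw [← mul_sum, ← hS, sum_add_distrib, ← mul_sum, ← mul_sum] at h2
  change 2 * S ≤ K * variance ρ f + 1 / K * variance ρ (linObs c) at h2
  have h3 := mul_le_mul_of_nonneg_left (hvar c) (one_div_pos.2 hK).le
  rw [← mul_assoc, one_div_mul_cancel hK.ne', one_mul] at h3
  change _ ≤ S at h3
  linarith

end Vale.Agent.P150.Beta1.PassTwo
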