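import Vale.Agent.P150.Beta1.Assembly.GapOfTrap
import Vale.Agent.P150.Beta1.PassTwo.Tilts

/-!
# A cutoff of exponentially small mean under the trap inequality
-/

namespace Vale.Agent.P150.Beta1.PassTwo

open Finset Function Real

variable {ι : Type*} [Fintype ι] [DecidableEq ι] {J : ι → ι → ℝ} {h : ι → ℝ}

/-- A slow cutoff of exponentially small mean carries little of the mass of a tilt. -/
theorem mean_mul_cutoff_le (hsymm : ∀ i j, J i j = J j i) (hdiag : ∀ i, J i i = 0)
    {C a d M : ℝ} (hC : 0 ≤ C)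
    (ht : ∀ F : (ι → Bool) → ℝ, (∀ x, 0 < F x) → ent (gibbs J h) F
      ≤ C * dirichlet (gibbs J h) (fun x => √(F x)) + d * mean (gibbs J h) F)
    {p : (ι → Bool) → ℝ} (hp : ∀ x, p x ∈ Set.Icc (0 : ℝ) 1)
    (hM : ∀ x, ∑ j, deriv2 j (fun z => √(p z)) x ^ 2 ≤ M)
    (hsmall : mean (gibbs J h) p ≤ exp (-a))
    {F : (ι → Bool) → ℝ} (hF : ∀ x, 0 < F x) (hpos : 0 < a / 2 - log 2 - d) :
    (a / 2 - log 2 - d) * mean (gibbs J h) (fun x => F x * p x)
      ≤ 4 * C * (dirichlet (gibbs J h) (fun x => √(F x)) + 2 * M * mean (gibbs J h) F)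
        + 2 * (a / 2 - log 2 - d) * exp (-(a / 2)) * mean (gibbs J h) F := by
  classical
  set μ := gibbs J h
  set θ := exp (-(a / 4)) with hθ
  have hθ0 : 0 < θ := exp_pos _
  have hθ2 : θ ^ 2 = exp (-(a / 2)) := by rw [hθ, ← exp_nat_mul]; congr 1; push_cast; ring
  set s := fun x => max (√(p x) - θ) 0 with hs
  have hs1 : ∀ x, |s x| ≤ 1 := fun x => by
    rw [abs_of_nonneg (le_max_right _ _)]
    refine max_le ?_ zero_le_one
    linarith [Real.sqrt_le_one.2 (hp x).2]
  have hsM : ∀ x, ∑ j, deriv2 j s x ^ 2 ≤ M := fun x => by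
    refine le_trans (sum_le_sum fun j _ => sq_le_sq.2 ?_) (hM x)
    simp only [deriv2, abs_div, abs_two, hs]
    refine div_le_div_of_nonneg_right ((abs_max_sub_max_le_abs _ _ _).trans (le_of_eq ?_)) zero_le_two
    rw [sub_sub_sub_cancel_right]
  set G := fun x => √(F x) * s x with hG
  have hT : mean μ (fun x => if θ < √(p x) then 1 else 0) ≤ exp (-(a / 2)) := by
    have h1 : θ ^ 2 * mean μ (fun x => if θ < √(p x) then 1 else 0) ≤ mean μ p := by
      simp only [mean, mul_sum]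
      refine sum_le_sum fun x _ => ?_
      rw [mul_left_comm]
      refine mul_le_mul_of_nonneg_left ?_ (gibbs_pos x).le
      split_ifs with hx
      · rw [mul_one, ← Real.sq_sqrt (hp x).1]
        exact pow_le_pow_left₀ hθ0.le hx.le 2
      · rw [mul_zero]; exact (hp x).1
    rw [hθ2] at h1
    refine le_of_mul_le_mul_left (h1.trans (hsmall.trans_eq ?_)) (exp_pos (-(a / 2)))
    rw [← exp_add]; ring_nf
  have hGd : dirichlet μ G ≤ 2 * dirichlet μ (fun x => √(F x)) + 4 * (M * mean μ F) :=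
    dirichlet_sqrt_mul_le hsymm hdiag (fun x => (hF x).le) hs1 hsM
  have hGt := (sq_mean_le_of_trap hsymm hdiag hC ht G (T := fun x => θ < √(p x))
    (fun x hx => by simp only [hG, hs]; rw [max_eq_right (by linarith), mul_zero]) hT).trans
    (mul_le_mul_of_nonneg_left hGd hC)
  have hpt : mean μ (fun x => F x * p x)
      ≤ 2 * mean μ (fun x => G x ^ 2) + 2 * exp (-(a / 2)) * mean μ F := by
    simp only [mean, mul_sum, ← sum_add_distrib]
    refine sum_le_sum fun x _ => ?_
    have h1 : p x ≤ 2 * s x ^ 2 + 2 * θ ^ 2 := by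
      calc p x = √(p x) ^ 2 := (Real.sq_sqrt (hp x).1).symm
        _ ≤ (s x + θ) ^ 2 := pow_le_pow_left₀ (Real.sqrt_nonneg _)
            (by linarith [le_max_left (√(p x) - θ) 0]) 2
        _ ≤ 2 * (s x ^ 2 + θ ^ 2) := add_sq_le
        _ = _ := by ring
    have h2 := mul_le_mul_of_nonneg_left h1 (mul_nonneg (gibbs_pos x).le (hF x).le : 0 ≤ μ x * F x)
    simp only [hG, mul_pow, Real.sq_sqrt (hF x).le]
    rw [hθ2] at h2
    linarith
  have := mul_le_mul_of_nonneg_left hpt hpos.le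
  linarith

end Vale.Agent.P150.Beta1.PassTwo
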