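import Mathlib
import Vale.Agent.P150.Edge

/-!
# Gronwall on a deterministic grid, and Markov's inequality for the bad grid points
-/

namespace Vale.Agent.P150.Beta1.PassTwo

open MeasureTheory Finset Real
open scoped ENNReal

/-- Gronwall on the grid `k T / N`, with a separate defect at each point. -/
theorem grid_gronwall {F G : ℝ → ℝ} {T C c A : ℝ} {N : ℕ} {B : ℕ → ℝ} (hT : 0 ≤ T) (hN : 0 < N)
    (hh : T / N ≤ 1) (hc : 0 ≤ c) (hch : c * (T / N) ≤ 1 / 2) (hC : 0 ≤ C) (hA : 0 ≤ A)
    (hB : ∀ k, 0 ≤ B k)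
    (step : ∀ v h, 0 ≤ v → 0 ≤ h → h ≤ 1 → |F (v + h) - (F v - h * G v)| ≤ C * (h * √h))
    (hG : ∀ k < N, G (k * (T / N)) ≤ c * F (k * (T / N)) + B k) (hFT : F T ≤ A) :
    F 0 ≤ exp (2 * c * T) * (A + T / N * ∑ k ∈ range N, B k + T * (C * √(T / N))) := by
  have hN' : (0:ℝ) < N := Nat.cast_pos.2 hN
  set h := T / N
  have h0 : 0 ≤ h := div_nonneg hT hN'.le
  have hNh : (N : ℝ) * h = T := mul_div_cancel₀ _ hN'.ne'
  set e := C * (h * √h)
  have he : 0 ≤ e := mul_nonneg hC (mul_nonneg h0 (Real.sqrt_nonneg _))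
  have main : ∀ j : ℕ, j ≤ N → F (((N - j : ℕ) : ℝ) * h)
      ≤ exp (2 * c * ((j : ℝ) * h)) * (A + ∑ l ∈ range j, (h * B (N - 1 - l) + e)) := by
    intro j
    induction j with
    | zero => simpa [hNh] using hFT
    | succ j ih =>
      intro hj
      have hk : N - (j + 1) < N := by omega
      have e1 : N - j = N - (j + 1) + 1 := by omega
      have hi := ih (by omega)
      rw [e1, Nat.cast_add_one, add_mul, one_mul] at hi
      set v := ((N - (j + 1) : ℕ) : ℝ) * h
      have hv : 0 ≤ v := mul_nonneg (Nat.cast_nonneg _) h0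
      have hs := (abs_le.1 (step v h hv h0 hh)).1
      have hg := mul_le_mul_of_nonneg_left (hG _ hk) h0
      rw [sum_range_succ, show N - 1 - j = N - (j + 1) by omega]
      set M := exp (2 * c * ((j : ℝ) * h))
      set R := A + ∑ l ∈ range j, (h * B (N - 1 - l) + e)
      have hM : 1 ≤ M := one_le_exp (by positivity)
      have hx : 0 ≤ h * B (N - (j + 1)) + e := add_nonneg (mul_nonneg h0 (hB _)) he
      have hR : 0 ≤ R := add_nonneg hA
        (sum_nonneg fun l _ => add_nonneg (mul_nonneg h0 (hB _)) he)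
      have h5 : F v * (1 - c * h) ≤ M * (R + (h * B (N - (j + 1)) + e)) := by
        have := le_mul_of_one_le_left hx hM
        linarith
      have hc1 : 0 < 1 - c * h := by linarith
      have hinv : 1 / (1 - c * h) ≤ exp (2 * c * h) := by
        rw [div_le_iff₀ hc1]
        have : 1 ≤ (1 + 2 * c * h) * (1 - c * h) := by
          have := mul_nonneg (mul_nonneg hc h0) (show 0 ≤ 1 - 2 * (c * h) by linarith)
          linarith
        exact this.trans (mul_le_mul_of_nonneg_right
          (by linarith [add_one_le_exp (2 * c * h)]) hc1.le)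
      rw [← le_div_iff₀ hc1] at h5
      refine h5.trans ?_
      have e2 : exp (2 * c * (((j + 1 : ℕ) : ℝ) * h)) = exp (2 * c * h) * M := by
        rw [← exp_add]; push_cast; ring_nf
      have hP : 0 ≤ M * (R + (h * B (N - (j + 1)) + e)) :=
        mul_nonneg (exp_pos _).le (add_nonneg hR hx)
      calc M * (R + (h * B (N - (j + 1)) + e)) / (1 - c * h)
          = 1 / (1 - c * h) * (M * (R + (h * B (N - (j + 1)) + e))) := by ring
        _ ≤ exp (2 * c * h) * (M * (R + (h * B (N - (j + 1)) + e))) :=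
            mul_le_mul_of_nonneg_right hinv hP
        _ = _ := by rw [e2]; simp only [R]; ring
  have hm := main N le_rfl
  rw [Nat.sub_self, Nat.cast_zero, zero_mul, hNh, sum_add_distrib, ← mul_sum,
    sum_range_reflect B N, sum_const, card_range, nsmul_eq_mul] at hm
  refine hm.trans (le_of_eq ?_)
  simp only [e]
  rw [show (N : ℝ) * (C * (h * √h)) = N * h * (C * √h) by ring, hNh, add_assoc]

/-- Few bad indices, by Markov's inequality; no measurability is needed. -/
theorem measure_many_le {Ω : Type*} [MeasurableSpace Ω] (μ : Measure Ω) {N : ℕ} (hN : 0 < N)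
    {S : ℕ → Set Ω} {p θ : ℝ} (hθ : 0 < θ)
    (hS : ∀ k < N, μ (S k) ≤ ENNReal.ofReal p) :
    μ {g | θ * N < ∑ k ∈ range N, (S k).indicator (fun _ => (1:ℝ)) g}
      ≤ ENNReal.ofReal (p / θ) := by
  set E : ℕ → Set Ω := fun k => toMeasurable μ (S k)
  set f : Ω → ℝ≥0∞ := fun g => ∑ k ∈ range N, (E k).indicator (fun _ => 1) g
  have hm : ∀ k, MeasurableSet (E k) := fun k => measurableSet_toMeasurable μ _
  have hf : Measurable f := by
    exact Finset.measurable_sum _ fun k _ => measurable_const.indicator (hm k)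
  have hsub : {g | θ * N < ∑ k ∈ range N, (S k).indicator (fun _ => (1:ℝ)) g}
      ⊆ {g | ENNReal.ofReal (θ * N) ≤ f g} := fun g hg => by
    refine (ENNReal.ofReal_le_ofReal (le_of_lt (show θ * N < _ from hg))).trans ?_
    rw [ENNReal.ofReal_sum_of_nonneg fun k _ => Set.indicator_nonneg (fun _ _ => zero_le_one) g]
    refine sum_le_sum fun k _ => ?_
    by_cases hk : g ∈ S k
    · rw [Set.indicator_of_mem hk, Set.indicator_of_mem (subset_toMeasurable μ _ hk)]
      simp
    · simp [hk]
  have h1 := mul_meas_ge_le_lintegral (μ := μ) hf (ENNReal.ofReal (θ * N))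
  have h2 : ∫⁻ g, f g ∂μ ≤ ENNReal.ofReal (N * p) := by
    rw [lintegral_finsetSum _ fun k _ => measurable_const.indicator (hm k)]
    calc ∑ k ∈ range N, ∫⁻ g, (E k).indicator (fun _ => 1) g ∂μ
        ≤ ∑ k ∈ range N, ENNReal.ofReal p := sum_le_sum fun k hk => by
          rw [lintegral_indicator_const (hm k), one_mul, measure_toMeasurable]
          exact hS k (mem_range.1 hk)
      _ = _ := by
          rw [sum_const, card_range, nsmul_eq_mul, ENNReal.ofReal_mul (Nat.cast_nonneg N),
            ENNReal.ofReal_natCast]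
  have hpos : 0 < θ * N := mul_pos hθ (Nat.cast_pos.2 hN)
  refine (measure_mono hsub).trans ?_
  rw [show p / θ = N * p / (θ * N) by
    have := hθ.ne'
    have : (N : ℝ) ≠ 0 := Nat.cast_ne_zero.2 hN.ne'
    field_simp, ENNReal.ofReal_div_of_pos hpos,
    ENNReal.le_div_iff_mul_le (Or.inl (by simp [hpos])) (Or.inl ENNReal.ofReal_ne_top), mul_comm]
  exact h1.trans h2

end Vale.Agent.P150.Beta1.PassTwo
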