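import Vale.Agent.P150.Beta1.PassTwo.Planted
import Vale.Agent.P150.Beta1.PassTwo.Tilts
import Vale.Agent.P150.Beta1.Fields.Interface

/-!
# The rates of entropy and variance, through stability at good fields

At good fields stability bounds the means of tilts; at the others the crude bounds cost the
planted probability of a bad field.
-/

namespace Vale.Agent.P150.Beta1.PassTwo

open MeasureTheory ProbabilityTheory Finset Function Real
open Local (wgt fld p0)

variable {n : ℕ}

open scoped Classical in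
/-- The indicator of the configurations that are far. -/
noncomputable def farInd (β : ℝ) (J : Fin n → Fin n → ℝ) (y m : Fin n → ℝ) (K : ℕ) (ρ : ℝ)
    (x : Fin n → Bool) : ℝ :=
  if Near β J y (spins x) m K ρ then 0 else 1

/-- Stability at one coupling matrix. -/
def StableAt (β κ η gmax ρ : ℝ) (K : ℕ) (C : ℝ) (J : Fin n → Fin n → ℝ) : Prop :=
  ∀ (y γ : Fin n → ℝ) (F : (Fin n → Bool) → ℝ), (∀ x, 0 < F x) →
    TapEdge β κ η gmax J y γ →
      ∑ i, (tmean (gibbs J y) F (fun x => spins x i) - tanh (γ i)) ^ 2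
        ≤ C * (tdir (gibbs J y) F + 1) + C * n * tmean (gibbs J y) F (farInd β J y (tanhv γ) K ρ)

variable {β κ η gmax ρ ρ' C ε u : ℝ} {K : ℕ} {J : Fin n → Fin n → ℝ}

lemma farInd_nonneg (y m : Fin n → ℝ) (x : Fin n → Bool) : 0 ≤ farInd β J y m K ρ x := by
  rw [farInd]; split_ifs <;> norm_num

lemma farInd_le_one (y m : Fin n → ℝ) (x : Fin n → Bool) : farInd β J y m K ρ x ≤ 1 := by
  rw [farInd]; split_ifs <;> norm_num

lemma farInd_mono (hρ : 0 ≤ ρ') (hle : ρ' ≤ ρ) (y m : Fin n → ℝ) (x : Fin n → Bool) :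
    farInd β J y m K ρ x ≤ farInd β J y m K ρ' x := by
  by_cases h : Near β J y (spins x) m K ρ
  · rw [farInd, if_pos h]
    exact farInd_nonneg y m x
  · rw [farInd, farInd, if_neg h, if_neg fun h' => h fun j hj hj' => (h' j hj hj').trans
      (mul_le_mul_of_nonneg_right (pow_le_pow_left₀ hρ hle 2) (Nat.cast_nonneg _))]

/-- At a good field the tilts of bounded length have their means near the TAP point. -/
lemma tilt_mean_near (hsymm : ∀ i j, J i j = J j i) (hdiag : ∀ i, J i i = 0)
    (hS : StableAt β κ η gmax ρ K C J) (hC : 0 ≤ C) (hρ : 0 ≤ ρ') (hle : ρ' ≤ ρ)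
    (hsmall : (n : ℝ) * (exp (2 * √n) * ε) ≤ 1) {y γ : Fin n → ℝ}
    (hγ : TapEdge β κ η gmax J y γ)
    (hfar : mean (gibbs J y) (farInd β J y (tanhv γ) K ρ') ≤ ε)
    {a : Fin n → ℝ} (ha : ∑ i, a i ^ 2 ≤ 1) :
    ∑ i, (tmean (gibbs J y) (fun x => exp (linObs a x)) (fun x => spins x i) - tanh (γ i)) ^ 2
      ≤ 3 * C := by
  set ν := gibbs J y
  have hν : IsWeight ν := IsWeight.gibbs J y
  set F : (Fin n → Bool) → ℝ := fun x => exp (linObs a x)
  have hL : ∀ x, |linObs a x| ≤ √(n : ℝ) := fun x => by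
    refine (abs_sum_le_sum_abs _ _).trans (Real.le_sqrt_of_sq_le ?_)
    refine sq_sum_le_card_mul_sum_sq.trans ?_
    rw [card_univ, Fintype.card_fin]
    refine mul_le_of_le_one_right (Nat.cast_nonneg n) (le_trans (le_of_eq ?_) ha)
    exact sum_congr rfl fun i _ => by
      rw [sq_abs, mul_pow, show spin (x i) ^ 2 = 1 by rw [sq]; exact spin_sq _, mul_one]
  have hm : exp (-√(n : ℝ)) ≤ mean ν F := by
    calc exp (-√(n : ℝ)) = ∑ x, ν x * exp (-√(n : ℝ)) := by rw [← sum_mul, hν.2, one_mul]
      _ ≤ _ := sum_le_sum fun x _ => mul_le_mul_of_nonneg_left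
          (exp_le_exp.2 (abs_le.1 (hL x)).1) (hν.1 x).le
  have hup : mean ν (fun x => F x * farInd β J y (tanhv γ) K ρ x) ≤ exp (√(n : ℝ)) * ε := by
    refine le_trans ?_ (mul_le_mul_of_nonneg_left hfar (exp_pos _).le)
    simp only [mean, mul_sum]
    refine sum_le_sum fun x _ => ?_
    have := mul_le_mul (exp_le_exp.2 (abs_le.1 (hL x)).2) (farInd_mono (β := β) (J := J) (K := K) hρ hle y (tanhv γ) x)
      (farInd_nonneg y _ x) (exp_pos _).le
    have := mul_le_mul_of_nonneg_left this (hν.1 x).le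
    linarith
  have hmp : 0 < mean ν F := (exp_pos _).trans_le hm
  have ht : (n : ℝ) * tmean ν F (farInd β J y (tanhv γ) K ρ) ≤ 1 := by
    have hε : 0 ≤ exp (√(n : ℝ)) * ε := le_trans (sum_nonneg fun x _ =>
      mul_nonneg (hν.1 x).le (mul_nonneg (exp_pos _).le (farInd_nonneg y _ x))) hup
    refine le_trans (mul_le_mul_of_nonneg_left ?_ (Nat.cast_nonneg n)) hsmall
    rw [tmean, div_le_iff₀ hmp]
    refine hup.trans (le_trans (le_of_eq ?_) (mul_le_mul_of_nonneg_left hm ?_))
    · rw [mul_right_comm, ← exp_add]; ring_nf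
    · have := nonneg_of_mul_nonneg_right hε (exp_pos _)
      positivity
  have h1 := hS y γ F (fun x => exp_pos _) hγ
  have h2 := tdir_exp_le (h := y) hsymm hdiag ha
  have h3 := mul_le_mul_of_nonneg_left ht hC
  have h4 := mul_le_mul_of_nonneg_left (show tdir ν F + 1 ≤ 2 by linarith) hC
  linarith

/-- At a good field the Gibbs mean is near the TAP point. -/
lemma mean_near (hsymm : ∀ i j, J i j = J j i) (hdiag : ∀ i, J i i = 0)
    (hS : StableAt β κ η gmax ρ K C J) (hC : 0 ≤ C) (hρ : 0 ≤ ρ') (hle : ρ' ≤ ρ)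
    (hsmall : (n : ℝ) * (exp (2 * √n) * ε) ≤ 1) {y γ : Fin n → ℝ}
    (hγ : TapEdge β κ η gmax J y γ)
    (hfar : mean (gibbs J y) (farInd β J y (tanhv γ) K ρ') ≤ ε) :
    ∑ i, (mean (gibbs J y) (fun x => spins x i) - tanh (γ i)) ^ 2 ≤ 3 * C := by
  refine le_of_eq_of_le ?_ (tilt_mean_near hsymm hdiag hS hC hρ hle hsmall hγ hfar
    (a := fun _ => 0) (by simp))
  simp [tmean, linObs, mean, gibbs_sum]

/-- The bad fields. -/
def badSet (β κ η gmax ρ : ℝ) (K : ℕ) (ε : ℝ) (J : Fin n → Fin n → ℝ) : Set (Fin n → ℝ) :=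
  {y | ¬GoodField β κ η gmax ρ K ε J y}

lemma measurableSet_badSet (hη : 0 < η) (hg : 1 + η ≤ gmax) :
    MeasurableSet (badSet β κ η gmax ρ K ε J) :=
  ((isClosed_goodField β κ η gmax ρ K ε hη hg).preimage
    (Continuous.prodMk_right J)).isOpen_compl.measurableSet

lemma measurable_badInd (hη : 0 < η) (hg : 1 + η ≤ gmax) :
    Measurable fun g : Fin n → ℝ => (badSet β κ η gmax ρ K ε J).indicator
      (1 : (Fin n → ℝ) → ℝ) (fld u g) :=
  (measurable_one.indicator (measurableSet_badSet hη hg)).comp (continuous_fld u).measurable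

lemma badInd_mem (y : Fin n → ℝ) :
    (badSet β κ η gmax ρ K ε J).indicator (1 : (Fin n → ℝ) → ℝ) y ∈ Set.Icc (0:ℝ) 1 := by
  by_cases h : y ∈ badSet β κ η gmax ρ K ε J <;> simp [h]

/-- Planted probability of a bad field. -/
noncomputable def badMean (β κ η gmax ρ : ℝ) (K : ℕ) (ε u : ℝ) (J : Fin n → Fin n → ℝ)
    (x : Fin n → Bool) : ℝ :=
  plantedMean u (fun g => (badSet β κ η gmax ρ K ε J).indicator 1 (fld u g)) x

lemma variance_linObs_crude (h : Fin n → ℝ) (a : Fin n → ℝ) :
    Vale.Agent.P150.variance (gibbs J h) (linObs a) ≤ n * ∑ i, a i ^ 2 := by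
  rw [Local.variance_eq' (IsWeight.gibbs J h)]
  refine (sub_le_self _ (sq_nonneg _)).trans ?_
  calc mean (gibbs J h) (fun x => linObs a x ^ 2) ≤ ∑ x, gibbs J h x * (n * ∑ i, a i ^ 2) :=
        sum_le_sum fun x _ => mul_le_mul_of_nonneg_left (by
          refine sq_sum_le_card_mul_sum_sq.trans (le_of_eq ?_)
          rw [card_univ, Fintype.card_fin]
          refine congrArg _ (sum_congr rfl fun i _ => ?_)
          rw [mul_pow, show spin (x i) ^ 2 = 1 by rw [sq]; exact spin_sq _, mul_one])
          (gibbs_pos x).le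
    _ = _ := by rw [← sum_mul, gibbs_sum, one_mul]

lemma variance_le_sq {f : (Fin n → Bool) → ℝ} {R : ℝ} (hf : ∀ x, |f x| ≤ R) (h : Fin n → ℝ) :
    Vale.Agent.P150.variance (gibbs J h) f ≤ R ^ 2 := by
  rw [Local.variance_eq' (IsWeight.gibbs J h)]
  refine (sub_le_self _ (sq_nonneg _)).trans ?_
  calc mean (gibbs J h) (fun x => f x ^ 2) ≤ ∑ x, gibbs J h x * R ^ 2 :=
        sum_le_sum fun x _ => mul_le_mul_of_nonneg_left
          (by beta_reduce; rw [← sq_abs (f x)]; exact pow_le_pow_left₀ (abs_nonneg _) (hf x) 2)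
          (gibbs_pos x).le
    _ = _ := by rw [← sum_mul, gibbs_sum, one_mul]

/-- The rate of the conditional variance. -/
theorem covRate_le (hu : 0 ≤ u) (hη : 0 < η) (hg : 1 + η ≤ gmax)
    (hsymm : ∀ i j, J i j = J j i) (hdiag : ∀ i, J i i = 0)
    (hS : StableAt β κ η gmax ρ K C J) (hC : 0 ≤ C) (hρ : 0 ≤ ρ') (hle : ρ' ≤ ρ)
    (hsmall : (n : ℝ) * (exp (2 * √n) * ε) ≤ 1)
    {f : (Fin n → Bool) → ℝ} {R : ℝ} (hf : ∀ x, |f x| ≤ R) :
    Local.covRate J f u ≤ 2 * exp ((1 + 12 * C) / 2) * Local.hVar J f u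
      + n * R ^ 2 * mean (p0 J) (badMean β κ η gmax ρ' K ε u J) := by
  set K' := 2 * exp ((1 + 12 * C) / 2)
  set S := badSet β κ η gmax ρ' K ε J
  obtain ⟨hi, he⟩ := integral_wgt_mean J hu
    (fun g (_ : Fin n → Bool) => n * R ^ 2 * S.indicator 1 (fld u g))
    (fun _ => (measurable_badInd hη hg).const_mul _) (B := n * R ^ 2) fun g _ => by
      rw [abs_mul, abs_of_nonneg (show 0 ≤ (n:ℝ) * R ^ 2 by positivity),
        abs_of_nonneg (badInd_mem _).1]
      exact mul_le_of_le_one_right (by positivity) (badInd_mem _).2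
  have hfm : Integrable (fun g => wgt J u g * Vale.Agent.P150.variance (gibbs J (fld u g)) f)
      (gauss (Fin n)) := by
    have hc : Continuous fun g => Vale.Agent.P150.variance (gibbs J (fld u g)) f := by
      have hmu : ∀ x, Continuous fun g : Fin n → ℝ => gibbs J (fld u g) x := fun x => by
        simp only [gibbs, energy, Local.fld]
        exact Continuous.div₀ (by fun_prop) (by fun_prop) fun g => partition_pos.ne'
      simp only [Vale.Agent.P150.variance, mean]
      exact continuous_finsetSum _ fun x _ => (hmu x).mul ((continuous_const.sub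
        (continuous_finsetSum _ fun y _ => (hmu y).mul continuous_const)).pow 2)
    refine integrable_mul_bdd (Local.integrable_wgt J hu) hc.measurable (B := R ^ 2) fun g => ?_
    rw [abs_of_nonneg (show 0 ≤ Vale.Agent.P150.variance (gibbs J (fld u g)) f from
      sum_nonneg fun x _ => mul_nonneg (gibbs_pos x).le (sq_nonneg _))]
    exact variance_le_sq hf _
  refine (integral_mono_of_nonneg (ae_of_all _ fun g => mul_nonneg (Local.wgt_pos J hu g).le
    (sum_nonneg fun k _ => sq_nonneg _)) ((hfm.const_mul K').fun_add hi)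
    (ae_of_all _ fun g => ?_)).trans ?_
  · beta_reduce
    rw [mul_left_comm K', ← mul_add]
    refine mul_le_mul_of_nonneg_left ?_ (Local.wgt_pos J hu g).le
    set y := fld u g
    have hv : 0 ≤ Vale.Agent.P150.variance (gibbs J y) f :=
      sum_nonneg fun x _ => mul_nonneg (gibbs_pos x).le (sq_nonneg _)
    simp only [mean, ← sum_mul, gibbs_sum, one_mul]
    by_cases hy : y ∈ S
    · rw [Set.indicator_of_mem hy, Pi.one_apply, mul_one]
      rcases Nat.eq_zero_or_pos n with hn | hn
      · subst hn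
        simp only [univ_eq_empty, sum_empty, Nat.cast_zero, zero_mul, add_zero]
        positivity
      have h1 := sum_cov_sq_le_variance (J := J) (h := y) (K := (n : ℝ)) (Nat.cast_pos.2 hn)
        (variance_linObs_crude y) f
      have h2 := mul_le_mul_of_nonneg_left (variance_le_sq (J := J) hf y) (Nat.cast_nonneg (α := ℝ) n)
      have h3 : 0 ≤ K' * Vale.Agent.P150.variance (gibbs J y) f :=
        mul_nonneg (by positivity) hv
      exact h1.trans (h2.trans (le_add_of_nonneg_left h3))
    · rw [Set.indicator_of_notMem hy, mul_zero, add_zero]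
      obtain ⟨γ, hγ, hfar⟩ := not_not.1 hy
      refine sum_cov_sq_le_variance (K := K') (by positivity) (fun a => variance_linObs_le ?_ a) f
      intro a ha
      have h1 := tilt_mean_near hsymm hdiag hS hC hρ hle hsmall hγ hfar ha
      have h2 := mean_near hsymm hdiag hS hC hρ hle hsmall hγ hfar
      calc ∑ k, (tmean (gibbs J y) (fun x => exp (linObs a x)) (fun x => spins x k)
            - mean (gibbs J y) fun x => spins x k) ^ 2
          ≤ ∑ k, (2 * (tmean (gibbs J y) (fun x => exp (linObs a x)) (fun x => spins x k)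
              - tanh (γ k)) ^ 2 + 2 * ((mean (gibbs J y) fun x => spins x k) - tanh (γ k)) ^ 2) :=
            sum_le_sum fun k _ => by
              linarith [sq_nonneg (tmean (gibbs J y) (fun x => exp (linObs a x))
                (fun x => spins x k) + (mean (gibbs J y) fun x => spins x k) - 2 * tanh (γ k))]
        _ ≤ 12 * C := by rw [sum_add_distrib, ← mul_sum, ← mul_sum]; linarith
  · rw [integral_add (hfm.const_mul K') hi, integral_const_mul, he]
    refine add_le_add le_rfl (le_of_eq ?_)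
    simp only [mean, mul_sum]
    refine sum_congr rfl fun x _ => ?_
    simp only [badMean, plantedMean, ← integral_const_mul]
    exact integral_congr_ae (ae_of_all _ fun g => by ring)

/-- The observables that detect far configurations, and their planted means. -/
noncomputable def obsMean (H : ℕ → (Fin n → Bool) → (Fin n → ℝ) → ℝ) (j : ℕ) (u : ℝ)
    (x : Fin n → Bool) : ℝ :=
  plantedMean u (fun g => H j x (fld u g) ^ 2) x

lemma entRate_le_crude (hu : 0 ≤ u) {F : (Fin n → Bool) → ℝ} (hF : ∀ x, 0 < F x) :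
    Local.entRate J F u ≤ 2 * n * mean (p0 J) F := by
  rw [← Local.integral_sum_tilt J hu F, ← integral_const_mul]
  refine integral_mono_of_nonneg (ae_of_all _ fun g => div_nonneg (mul_nonneg (mul_nonneg
    (Local.wgt_pos J hu g).le (mean_pos (IsWeight.gibbs _ _) hF).le)
    (sum_nonneg fun k _ => sq_nonneg _)) two_pos.le) ((Local.integrable_mean J hu F).const_mul _)
    (ae_of_all _ fun g => ?_)
  beta_reduce
  set ν := gibbs J (fld u g)
  have hm := mean_pos (IsWeight.gibbs J (fld u g)) hF
  have hb : ∀ k, |tmean ν F (fun x => spins x k)| ≤ 1 ∧ |mean ν fun x => spins x k| ≤ 1 := fun k => by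
    have e : ∀ x, |spins x k| = 1 := fun x => by
      rcases spin_cases (x k) with h | h <;> simp [spins, h]
    constructor
    · rw [tmean, abs_div, abs_of_pos hm, div_le_one hm]
      exact (abs_sum_le_sum_abs _ _).trans (sum_le_sum fun x _ => by
        rw [abs_mul, abs_mul, e, mul_one, abs_of_pos (gibbs_pos x), abs_of_pos (hF x)])
    · refine (abs_sum_le_sum_abs _ _).trans (le_trans (sum_le_sum fun x _ => le_of_eq ?_)
        (le_of_eq (gibbs_sum (J := J) (h := fld u g))))
      rw [abs_mul, e, mul_one, abs_of_pos (gibbs_pos x)]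
  have h4 : ∑ k, (tmean ν F (fun x => spins x k) - mean ν fun x => spins x k) ^ 2 ≤ 4 * n := by
    refine (sum_le_sum (g := fun _ => (4:ℝ)) fun k _ => ?_).trans (le_of_eq (by simp [mul_comm]))
    obtain ⟨h1, h2⟩ := hb k
    have := pow_le_pow_left₀ (abs_nonneg _) ((abs_sub _ _).trans (add_le_add h1 h2)) 2
    rw [sq_abs] at this
    linarith
  have := mul_le_mul_of_nonneg_left h4 (mul_nonneg (Local.wgt_pos J hu g).le hm.le)
  linarith

/-- The rate of entropy. -/
theorem entRate_le (hu : 0 ≤ u) (hη : 0 < η) (hg : 1 + η ≤ gmax)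
    (hsymm : ∀ i j, J i j = J j i) (hdiag : ∀ i, J i i = 0)
    (hS : StableAt β κ η gmax ρ K C J) (hC : 0 ≤ C) (hρ : 0 ≤ ρ') (hle : ρ' ≤ ρ)
    (hsmall : (n : ℝ) * (exp (2 * √n) * ε) ≤ 1)
    {H : ℕ → (Fin n → Bool) → (Fin n → ℝ) → ℝ}
    (hHm : ∀ j x, Measurable (H j x)) (hH : ∀ j x y, H j x y ∈ Set.Icc (0:ℝ) 1)
    (hone : ∀ j x y (m : Fin n → ℝ),
      ∑ i, ((mean (gibbs J y) fun z => spins z i) - m i) ^ 2 ≤ 3 * C →
      ρ ^ 2 * n < ∑ i, (ampA β J y (spins x) j i - m i) ^ 2 → H j x y = 1)
    {F : (Fin n → Bool) → ℝ} (hF : ∀ x, 0 < F x) :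
    Local.entRate J F u ≤ C * ∑ i, siteEnt (gibbs J 0) i F + 4 * C * mean (p0 J) F
      + (C + 2) * n * mean (p0 J) (fun x => F x * (badMean β κ η gmax ρ' K ε u J x
          + ∑ j ∈ Finset.Icc K (K + 2), obsMean H j u x)) := by
  set G := fun i => resample (p0 J) i F
  have hG : ∀ i x, 0 < G i x := fun i => resample_pos (IsWeight.gibbs J 0) hF i
  set ψ := fun x => ∑ i, Vale.Agent.P150.psi (F x) (G i x)
  have hψ : ∀ x, 0 ≤ ψ x := fun x => sum_nonneg fun i _ => Vale.Agent.P150.psi_nonneg (hF x) (hG i x)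
  set S := badSet β κ η gmax ρ' K ε J
  set I := Finset.Icc K (K + 2)
  set Φ : (Fin n → ℝ) → (Fin n → Bool) → ℝ := fun g x => C * ψ x + 4 * C * F x
    + (C + 2) * n * (F x * (S.indicator 1 (fld u g) + ∑ j ∈ I, H j x (fld u g) ^ 2))
  have hHc : ∀ j x, Measurable fun g => H j x (fld u g) ^ 2 := fun j x =>
    ((hHm j x).comp (continuous_fld u).measurable).pow_const 2
  have hsum : ∀ g x, |S.indicator (1 : (Fin n → ℝ) → ℝ) (fld u g)
      + ∑ j ∈ I, H j x (fld u g) ^ 2| ≤ 1 + I.card := fun g x => by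
    rw [abs_of_nonneg (add_nonneg (badInd_mem _).1 (sum_nonneg fun j _ => sq_nonneg _))]
    refine add_le_add (badInd_mem _).2 ((sum_le_sum (g := fun _ => (1:ℝ)) fun j _ =>
      pow_le_one₀ (hH j x _).1 (hH j x _).2).trans (by simp))
  obtain ⟨hi, he⟩ := integral_wgt_mean J hu Φ
    (fun x => ((((measurable_badInd hη hg).add (Finset.measurable_sum _ fun j _ => hHc j x)).const_mul
      _).const_mul _).const_add _)
    (B := ∑ x, (C * ψ x + 4 * C * F x + (C + 2) * n * (F x * (1 + I.card)))) fun g x => by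
      have hp : ∀ z, 0 ≤ C * ψ z + 4 * C * F z + (C + 2) * n * (F z * (1 + I.card)) := fun z => by
        have := hψ z
        have := (hF z).le
        positivity
      refine le_trans ?_ (single_le_sum (f := fun z => C * ψ z + 4 * C * F z
        + (C + 2) * n * (F z * (1 + I.card))) (fun z _ => hp z) (mem_univ x))
      have hnn : 0 ≤ S.indicator (1 : (Fin n → ℝ) → ℝ) (fld u g) + ∑ j ∈ I, H j x (fld u g) ^ 2 :=
        add_nonneg (badInd_mem _).1 (sum_nonneg fun j _ => sq_nonneg _)
      have h1 := hψ x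
      have h2 := (hF x).le
      rw [abs_of_nonneg (by positivity)]
      exact add_le_add le_rfl (mul_le_mul_of_nonneg_left (mul_le_mul_of_nonneg_left
        ((le_abs_self _).trans (hsum g x)) h2) (by positivity))
  refine (integral_mono_of_nonneg (ae_of_all _ fun g => div_nonneg (mul_nonneg (mul_nonneg
    (Local.wgt_pos J hu g).le (mean_pos (IsWeight.gibbs _ _) hF).le)
    (sum_nonneg fun k _ => sq_nonneg _)) two_pos.le) hi (ae_of_all _ fun g => ?_)).trans
    (he.trans_le ?_)
  · beta_reduce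
    set y := fld u g
    set ν := gibbs J y
    have hν : IsWeight ν := IsWeight.gibbs J y
    have hm := mean_pos hν hF
    rw [mul_assoc (wgt J u g), mul_div_assoc]
    refine mul_le_mul_of_nonneg_left ?_ (Local.wgt_pos J hu g).le
    set X := ∑ k, (tmean ν F (fun x => spins x k) - mean ν fun x => spins x k) ^ 2
    have e : mean ν (Φ g) = C * mean ν ψ + 4 * C * mean ν F
        + (C + 2) * n * mean ν (fun x => F x * (S.indicator 1 y + ∑ j ∈ I, H j x y ^ 2)) := by
      simp only [mean, Φ, mul_add (ν _), sum_add_distrib]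
      simp only [mul_sum]
      congr 1
      · congr 1 <;> exact sum_congr rfl fun x _ => by ring
      · exact sum_congr rfl fun x _ => by simp only [y]; ring
    rw [e]
    have hψ0 : 0 ≤ mean ν ψ := sum_nonneg fun x _ => mul_nonneg (hν.1 x).le (hψ x)
    have hrest : 0 ≤ mean ν (fun x => F x * (S.indicator 1 y + ∑ j ∈ I, H j x y ^ 2)) :=
      sum_nonneg fun x _ => mul_nonneg (hν.1 x).le (mul_nonneg (hF x).le
        (add_nonneg (badInd_mem _).1 (sum_nonneg fun j _ => sq_nonneg _)))
    by_cases hy : y ∈ S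
    · have h4 : X ≤ 4 * n := by
        refine (sum_le_sum (g := fun _ => (4:ℝ)) fun k _ => ?_).trans
          (le_of_eq (by simp [mul_comm]))
        have e1 : ∀ x, |spins x k| = 1 := fun x => by
          rcases spin_cases (x k) with h | h <;> simp [spins, h]
        have h1 : |tmean ν F fun x => spins x k| ≤ 1 := by
          rw [tmean, abs_div, abs_of_pos hm, div_le_one hm]
          exact (abs_sum_le_sum_abs _ _).trans (sum_le_sum fun x _ => by
            rw [abs_mul, abs_mul, e1, mul_one, abs_of_pos (hν.1 x), abs_of_pos (hF x)])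
        have h2 : |mean ν fun x => spins x k| ≤ 1 := by
          refine (abs_sum_le_sum_abs _ _).trans (le_trans (sum_le_sum fun x _ => le_of_eq ?_)
            (le_of_eq hν.2))
          rw [abs_mul, e1, mul_one, abs_of_pos (hν.1 x)]
        have := pow_le_pow_left₀ (abs_nonneg _) ((abs_sub _ _).trans (add_le_add h1 h2)) 2
        rw [sq_abs] at this
        linarith
      have hF2 : mean ν F ≤ mean ν (fun x => F x * (S.indicator 1 y + ∑ j ∈ I, H j x y ^ 2)) :=
        sum_le_sum fun x _ => mul_le_mul_of_nonneg_left (le_mul_of_one_le_right (hF x).le (by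
          rw [Set.indicator_of_mem hy, Pi.one_apply]
          linarith [sum_nonneg fun j (_ : j ∈ I) => sq_nonneg (H j x y)])) (hν.1 x).le
      have := mul_le_mul_of_nonneg_left h4 hm.le
      have := mul_le_mul_of_nonneg_left hF2 (show 0 ≤ 2 * (n:ℝ) by positivity)
      have := mul_nonneg hC hψ0
      have := mul_nonneg hC hm.le
      have := mul_nonneg (mul_nonneg hC (Nat.cast_nonneg (α := ℝ) n)) hrest
      linarith
    · obtain ⟨γ, hγ, hfar⟩ := not_not.1 hy
      set m := tanhv γ
      have hb := mean_near hsymm hdiag hS hC hρ hle hsmall hγ hfar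
      have hs := hS y γ F hF hγ
      have hD : mean ν F * tdir ν F ≤ mean ν ψ := by
        rw [tdir, mul_div_cancel₀ _ hm.ne']
        refine (dirichlet_sqrt_le_siteEnt hν hF).trans ((sum_le_sum fun i _ => siteEnt_le hν hF i
          (hG i) fun x b => resample_update_self _ i F x b).trans (le_of_eq ?_))
        simp only [mean, ψ, mul_sum]
        exact sum_comm
      have hfm : mean ν F * tmean ν F (farInd β J y m K ρ)
          ≤ mean ν (fun x => F x * (S.indicator 1 y + ∑ j ∈ I, H j x y ^ 2)) := by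
        rw [tmean, mul_div_cancel₀ _ hm.ne', Set.indicator_of_notMem hy]
        refine sum_le_sum fun x _ => mul_le_mul_of_nonneg_left
          (mul_le_mul_of_nonneg_left ?_ (hF x).le) (hν.1 x).le
        rw [zero_add]
        by_cases hnear : Near β J y (spins x) m K ρ
        · rw [farInd, if_pos hnear]
          exact sum_nonneg fun j _ => sq_nonneg _
        · rw [farInd, if_neg hnear]
          simp only [Near, not_forall, not_le, Fintype.card_fin] at hnear
          obtain ⟨j, hj1, hj2, hj⟩ := hnear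
          calc (1:ℝ) = H j x y ^ 2 := by rw [hone j x y m hb hj, one_pow]
            _ ≤ _ := single_le_sum (f := fun j => H j x y ^ 2) (fun j _ => sq_nonneg _)
                (Finset.mem_Icc.2 ⟨hj1, hj2⟩)
      have hX : X ≤ 2 * ∑ k, (tmean ν F (fun x => spins x k) - tanh (γ k)) ^ 2
          + 2 * ∑ k, ((mean ν fun x => spins x k) - tanh (γ k)) ^ 2 := by
        rw [mul_sum, mul_sum, ← sum_add_distrib]
        refine sum_le_sum fun k _ => ?_
        linarith [sq_nonneg ((tmean ν F fun x => spins x k)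
          + (mean ν fun x => spins x k) - 2 * tanh (γ k))]
      have a1 := mul_le_mul_of_nonneg_left hX hm.le
      have a2 := mul_le_mul_of_nonneg_left hs hm.le
      have a3 := mul_le_mul_of_nonneg_left hb hm.le
      have a4 := mul_le_mul_of_nonneg_left hD hC
      have a5 := mul_le_mul_of_nonneg_left hfm (mul_nonneg hC (Nat.cast_nonneg (α := ℝ) n))
      have := mul_nonneg (show 0 ≤ 2 * (n:ℝ) by positivity) hrest
      linarith
  · have hsum' : mean (p0 J) ψ = ∑ i, siteEnt (gibbs J 0) i F := by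
      simp only [mean, ψ, mul_sum, siteEnt, G, p0]
      exact sum_comm
    rw [← hsum']
    simp only [mean, mul_sum, ← sum_add_distrib]
    refine sum_le_sum fun x _ => le_of_eq ?_
    have e : plantedMean u (fun g => Φ g x) x = C * ψ x + 4 * C * F x
        + (C + 2) * n * (F x * (badMean β κ η gmax ρ' K ε u J x
          + ∑ j ∈ I, obsMean H j u x)) := by
      have hi1 : Integrable (fun g => shiftW (plant u x) g * S.indicator 1 (fld u g))
          (gauss (Fin n)) := integrable_mul_bdd (integrable_shiftW _) (measurable_badInd hη hg)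
        (B := 1) fun g => by rw [abs_of_nonneg (badInd_mem _).1]; exact (badInd_mem _).2
      have hi2 : ∀ j, Integrable (fun g => shiftW (plant u x) g * H j x (fld u g) ^ 2)
          (gauss (Fin n)) := fun j => integrable_mul_bdd (integrable_shiftW _) (hHc j x)
        (B := 1) fun g => by
          rw [abs_of_nonneg (sq_nonneg _)]; exact pow_le_one₀ (hH j x _).1 (hH j x _).2
      have e0 : ∀ g, shiftW (plant u x) g * Φ g x = (C * ψ x + 4 * C * F x) * shiftW (plant u x) g
          + (C + 2) * n * F x * (shiftW (plant u x) g * S.indicator 1 (fld u g)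
            + ∑ j ∈ I, shiftW (plant u x) g * H j x (fld u g) ^ 2) := fun g => by
        simp only [Φ, ← mul_sum]; ring
      simp only [badMean, obsMean, plantedMean, e0]
      rw [integral_add ((integrable_shiftW _).const_mul _)
        ((hi1.fun_add (integrable_finsetSum _ fun j _ => hi2 j)).const_mul _), integral_const_mul,
        integral_const_mul, integral_shiftW, integral_add hi1
        (integrable_finsetSum _ fun j _ => hi2 j), integral_finsetSum _ fun j _ => hi2 j]
      ring
    rw [e]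
    ring

/-- The planted mean of a detecting observable is small on average. -/
theorem obsMass_le (hu : 0 ≤ u) (hη : 0 < η) (hg : 1 + η ≤ gmax)
    (hsymm : ∀ i j, J i j = J j i) (hdiag : ∀ i, J i i = 0)
    (hS : StableAt β κ η gmax ρ K C J) (hC : 0 ≤ C) (hρ : 0 ≤ ρ') (hle : ρ' ≤ ρ)
    (hsmall : (n : ℝ) * (exp (2 * √n) * ε) ≤ 1) (hε : 0 ≤ ε)
    {H : ℕ → (Fin n → Bool) → (Fin n → ℝ) → ℝ}
    (hHm : ∀ j x, Measurable (H j x)) (hH : ∀ j x y, H j x y ∈ Set.Icc (0:ℝ) 1)
    (hpos : ∀ j x y (m : Fin n → ℝ),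
      ∑ i, ((mean (gibbs J y) fun z => spins z i) - m i) ^ 2 ≤ 3 * C →
      0 < H j x y → ρ' ^ 2 * n < ∑ i, (ampA β J y (spins x) j i - m i) ^ 2)
    {j : ℕ} (hj : j ∈ Finset.Icc K (K + 2)) :
    mean (p0 J) (obsMean H j u) ≤ mean (p0 J) (badMean β κ η gmax ρ' K ε u J) + ε := by
  set S := badSet β κ η gmax ρ' K ε J
  obtain ⟨hi1, he1⟩ := integral_wgt_mean J hu (fun g x => H j x (fld u g) ^ 2)
    (fun x => ((hHm j x).comp (continuous_fld u).measurable).pow_const 2) (B := 1) fun g x => by
      rw [abs_of_nonneg (sq_nonneg _)]; exact pow_le_one₀ (hH j x _).1 (hH j x _).2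
  obtain ⟨hi2, he2⟩ := integral_wgt_mean J hu (fun g (_ : Fin n → Bool) => S.indicator 1 (fld u g))
    (fun _ => measurable_badInd hη hg) (B := 1) fun g _ => by
      rw [abs_of_nonneg (badInd_mem _).1]; exact (badInd_mem _).2
  change mean (p0 J) (fun x => plantedMean u (fun g => H j x (fld u g) ^ 2) x)
    ≤ mean (p0 J) (fun x => plantedMean u (fun g => S.indicator 1 (fld u g)) x) + ε
  rw [← he1, ← he2, ← mul_one ε, ← Local.integral_wgt J hu, ← integral_const_mul,
    ← integral_add hi2 ((Local.integrable_wgt J hu).const_mul ε)]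
  refine integral_mono hi1 (hi2.fun_add ((Local.integrable_wgt J hu).const_mul ε)) fun g => ?_
  beta_reduce
  rw [mul_comm ε, ← mul_add]
  refine mul_le_mul_of_nonneg_left ?_ (Local.wgt_pos J hu g).le
  set y := fld u g
  simp only [mean, ← sum_mul, gibbs_sum, one_mul]
  by_cases hy : y ∈ S
  · rw [Set.indicator_of_mem hy, Pi.one_apply]
    refine le_trans ?_ (le_add_of_nonneg_right hε)
    calc ∑ x, gibbs J y x * H j x y ^ 2 ≤ ∑ x, gibbs J y x * 1 := sum_le_sum fun x _ =>
          mul_le_mul_of_nonneg_left (pow_le_one₀ (hH j x y).1 (hH j x y).2) (gibbs_pos x).le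
      _ = 1 := by rw [← sum_mul, gibbs_sum, one_mul]
  · rw [Set.indicator_of_notMem hy, zero_add]
    obtain ⟨γ, hγ, hfar⟩ := not_not.1 hy
    refine le_trans ?_ hfar
    refine sum_le_sum fun x _ => mul_le_mul_of_nonneg_left ?_ (gibbs_pos x).le
    beta_reduce
    obtain ⟨hj1, hj2⟩ := Finset.mem_Icc.1 hj
    rcases (hH j x y).1.eq_or_lt with h0 | h0
    · rw [← h0, zero_pow two_ne_zero]
      split_ifs <;> norm_num
    · have h1 := hpos j x y (tanhv γ) (mean_near hsymm hdiag hS hC hρ hle hsmall hγ hfar) h0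
      rw [if_neg fun hn => absurd (hn j hj1 hj2) (not_le.2 (by rw [Fintype.card_fin]; exact h1))]
      exact pow_le_one₀ (hH j x y).1 (hH j x y).2

end Vale.Agent.P150.Beta1.PassTwo
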