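import Vale.Agent.P150.Beta1.PassTwo.Rate
import Vale.Agent.P150.Beta1.StabilityStatement
import Vale.Agent.P150.Beta1.Assembly.Events
import Vale.Agent.P150.Beta1.LargeField
import Vale.Agent.P150.Beta1.PassTwo.Grid
import Vale.Agent.P150.Beta1.Assembly.GapOfTrap

/-!
# The events of pass two

Only the stability event may fail to be measurable; the others have complements of small outer
probability.
-/

namespace Vale.Agent.P150.Beta1.PassTwo

open MeasureTheory ProbabilityTheory Finset Function Filter Real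
open Local (wgt fld p0)
open scoped ENNReal Topology

section Large

variable {n : ℕ} (β : ℝ)

lemma continuous_gibbs_at (y : Fin n → ℝ) (x : Fin n → Bool) :
    Continuous fun g : Fin n × Fin n → ℝ => gibbs (skCoupling β g) y x := by
  have hE : ∀ z, Continuous fun g : Fin n × Fin n → ℝ => exp (energy (skCoupling β g) y z) := by
    intro z
    simp only [energy]
    exact continuous_exp.comp (((continuous_finsetSum _ fun i _ => continuous_finsetSum _ fun j _ =>
      ((continuous_skCoupling β i j).mul continuous_const).mul continuous_const).div_const _).add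
      continuous_const)
  simp only [gibbs]
  exact (hE x).div (continuous_finsetSum _ fun z _ => hE z) fun g =>
    (sum_pos (fun z _ => exp_pos _) univ_nonempty).ne'

lemma continuous_mean_at (y : Fin n → ℝ) {G : (Fin n × Fin n → ℝ) → (Fin n → Bool) → ℝ}
    (hG : ∀ x, Continuous fun g => G g x) :
    Continuous fun g => mean (gibbs (skCoupling β g) y) (G g) :=
  continuous_finsetSum _ fun x _ => (continuous_gibbs_at β y x).mul (hG x)

lemma continuous_resample_at (y : Fin n → ℝ) (i : Fin n) (f : (Fin n → Bool) → ℝ)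
    (x : Fin n → Bool) :
    Continuous fun g => resample (gibbs (skCoupling β g) y) i f x :=
  (((continuous_gibbs_at β y _).mul continuous_const).add
    ((continuous_gibbs_at β y _).mul continuous_const)).div
      ((continuous_gibbs_at β y _).add (continuous_gibbs_at β y _)) fun _ =>
        (add_pos (gibbs_pos _) (gibbs_pos _)).ne'

/-- The event of the large-field module. -/
def largeEvent (A ε K κ : ℝ) (n : ℕ) : Set (Fin n × Fin n → ℝ) :=
  {g | ∀ y : Fin n → ℝ, ((univ.filter fun i => |y i| < A).card : ℝ) ≤ ε * n →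
    EntFactor (gibbs (skCoupling β g) y) K ∧
    ∀ f : (Fin n → Bool) → ℝ, κ * Vale.Agent.P150.variance (gibbs (skCoupling β g) y) f
      ≤ dirichlet (gibbs (skCoupling β g) y) f}

lemma continuous_ent_at (y : Fin n → ℝ) {F : (Fin n → Bool) → ℝ} (hF : ∀ x, 0 < F x) :
    Continuous fun g => ent (gibbs (skCoupling β g) y) F :=
  continuous_mean_at β y fun x => continuous_psi (hF x)
    (continuous_mean_at β y (G := fun _ => F) fun _ => continuous_const)
    fun _ => mean_pos (IsWeight.gibbs _ _) hF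

lemma continuous_siteEnt_at (y : Fin n → ℝ) {F : (Fin n → Bool) → ℝ} (hF : ∀ x, 0 < F x)
    (i : Fin n) : Continuous fun g => siteEnt (gibbs (skCoupling β g) y) i F :=
  continuous_mean_at β y fun x => continuous_psi (hF x) (continuous_resample_at β y i F x)
    fun _ => resample_pos (IsWeight.gibbs _ _) hF i x

lemma continuous_variance_at (y : Fin n → ℝ) (f : (Fin n → Bool) → ℝ) :
    Continuous fun g => Vale.Agent.P150.variance (gibbs (skCoupling β g) y) f :=
  continuous_mean_at β y fun _ =>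
    (continuous_const.sub (continuous_mean_at β y (G := fun _ => f) fun _ => continuous_const)).pow 2

lemma continuous_dirichlet_at (y : Fin n → ℝ) (f : (Fin n → Bool) → ℝ) :
    Continuous fun g => dirichlet (gibbs (skCoupling β g) y) f :=
  (continuous_mean_at β y fun x => continuous_const.mul (continuous_finsetSum _ fun i _ =>
    (continuous_resample_at β y i f x).sub continuous_const)).neg

lemma measurableSet_largeEvent (A ε K κ : ℝ) : MeasurableSet (largeEvent β A ε K κ n) := by
  refine IsClosed.measurableSet ?_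
  simp only [largeEvent, EntFactor, Set.ofPred_forall, Set.ofPred_and]
  exact isClosed_iInter fun y => isClosed_iInter fun _ => IsClosed.inter
    (isClosed_iInter fun f => isClosed_iInter fun hf => isClosed_le (continuous_ent_at β y hf)
      (continuous_const.mul (continuous_finsetSum _ fun i _ => continuous_siteEnt_at β y hf i)))
    (isClosed_iInter fun f => isClosed_le (continuous_const.mul (continuous_variance_at β y f))
      (continuous_dirichlet_at β y f))

end Large

lemma tendsto_compl_zero {S : ∀ n, Set (Fin n × Fin n → ℝ)} (hS : ∀ n, MeasurableSet (S n))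
    (h : Tendsto (fun n : ℕ => Measure.pi (fun _ : Fin n × Fin n => gaussianReal 0 1) (S n))
      atTop (𝓝 1)) :
    Tendsto (fun n : ℕ => Measure.pi (fun _ : Fin n × Fin n => gaussianReal 0 1) (S n)ᶜ)
      atTop (𝓝 0) := by
  have h1 := ENNReal.Tendsto.sub (tendsto_const_nhds (x := (1 : ℝ≥0∞))) h
    (Or.inl ENNReal.one_ne_top)
  rw [tsub_self] at h1
  exact h1.congr fun n => (prob_compl_eq_one_sub (hS n)).symm

/-- An event of probability near one, less bad events of small probability. -/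
lemma tendsto_of_sdiff {S B Gd : ∀ n, Set (Fin n × Fin n → ℝ)}
    (hS : Tendsto (fun n : ℕ => Measure.pi (fun _ : Fin n × Fin n => gaussianReal 0 1) (S n))
      atTop (𝓝 1))
    (hB : Tendsto (fun n : ℕ => Measure.pi (fun _ : Fin n × Fin n => gaussianReal 0 1) (B n))
      atTop (𝓝 0))
    (h : ∀ᶠ n : ℕ in atTop, S n \ B n ⊆ Gd n) :
    Tendsto (fun n : ℕ => Measure.pi (fun _ : Fin n × Fin n => gaussianReal 0 1) (Gd n))
      atTop (𝓝 1) := by
  have hlow := ENNReal.Tendsto.sub hS hB (Or.inl ENNReal.one_ne_top)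
  rw [tsub_zero] at hlow
  exact tendsto_of_tendsto_of_tendsto_of_le_of_le' hlow tendsto_const_nhds
    (h.mono fun n hn => le_measure_sdiff.trans (measure_mono hn))
    (Eventually.of_forall fun n => prob_le_one)

lemma tendsto_union {A B : ∀ n, Set (Fin n × Fin n → ℝ)}
    (ha : Tendsto (fun n : ℕ => Measure.pi (fun _ : Fin n × Fin n => gaussianReal 0 1) (A n))
      atTop (𝓝 0))
    (hb : Tendsto (fun n : ℕ => Measure.pi (fun _ : Fin n × Fin n => gaussianReal 0 1) (B n))
      atTop (𝓝 0)) :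
    Tendsto (fun n : ℕ => Measure.pi (fun _ : Fin n × Fin n => gaussianReal 0 1) (A n ∪ B n))
      atTop (𝓝 0) := by
  have h := ha.add hb
  rw [add_zero] at h
  exact tendsto_of_tendsto_of_tendsto_of_le_of_le tendsto_const_nhds h (fun n => bot_le)
    fun n => measure_union_le _ _

lemma tendsto_of_exp_bound {B : ∀ n, Set (Fin n × Fin n → ℝ)} {a : ℝ} (ha : 0 < a)
    (h : ∀ᶠ n : ℕ in atTop, Measure.pi (fun _ : Fin n × Fin n => gaussianReal 0 1) (B n)
      ≤ ENNReal.ofReal (exp (-(a * n)))) :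
    Tendsto (fun n : ℕ => Measure.pi (fun _ : Fin n × Fin n => gaussianReal 0 1) (B n))
      atTop (𝓝 0) := by
  have h1 : Tendsto (fun n : ℕ => exp (-(a * n))) atTop (𝓝 0) :=
    tendsto_exp_neg_atTop_nhds_zero.comp (tendsto_natCast_atTop_atTop.const_mul_atTop ha)
  have h2 := ENNReal.tendsto_ofReal h1
  rw [ENNReal.ofReal_zero] at h2
  exact tendsto_of_tendsto_of_tendsto_of_le_of_le' tendsto_const_nhds h2
    (Eventually.of_forall fun n => bot_le) h

lemma eventually_tiny (M : ℝ) {a : ℝ} (ha : 0 < a) :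
    ∀ᶠ n : ℕ in atTop, M * ((n : ℝ) + 1) * exp (-(a * n)) ≤ 1 := by
  have h1 := (tendsto_rpow_mul_exp_neg_mul_atTop_nhds_zero 1 a ha).comp
    (tendsto_natCast_atTop_atTop (R := ℝ))
  have h2 := (tendsto_rpow_mul_exp_neg_mul_atTop_nhds_zero 0 a ha).comp
    (tendsto_natCast_atTop_atTop (R := ℝ))
  have h3 : Tendsto (fun n : ℕ => M * ((n : ℝ) + 1) * exp (-(a * n))) atTop (𝓝 0) := by
    have h := (h1.add h2).const_mul M
    simp only [comp_apply, rpow_one, rpow_zero, add_zero, mul_zero, neg_mul] at h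
    exact h.congr fun n => by ring
  exact h3.eventually_le_const one_pos

lemma eventually_small {c : ℝ} (hc : 0 < c) :
    ∀ᶠ n : ℕ in atTop, (n : ℝ) * (exp (2 * √n) * exp (-(c * n))) ≤ 1 := by
  filter_upwards [eventually_ge_atTop ⌈(4 / c) ^ 2⌉₊,
    eventually_tiny 1 (show 0 < c / 2 by positivity)] with n hn h1
  have h2 : 4 / c ≤ √(n : ℝ) := Real.le_sqrt_of_sq_le ((Nat.le_ceil _).trans (Nat.cast_le.2 hn))
  have h3 : 2 * √(n : ℝ) ≤ c / 2 * n := by
    rw [div_le_iff₀ hc] at h2
    have h := mul_le_mul_of_nonneg_right h2 (Real.sqrt_nonneg (n : ℝ))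
    rw [mul_right_comm (√(n : ℝ)), Real.mul_self_sqrt (Nat.cast_nonneg n)] at h
    linarith
  refine le_trans ?_ h1
  rw [one_mul]
  refine mul_le_mul (by linarith) ?_ (by positivity) (by positivity)
  rw [← exp_add, exp_le_exp]
  linarith

/-- A grid fine enough for the steps and for Gronwall. -/
lemma exists_grid {T C L δ : ℝ} (hδ : 0 < δ) :
    ∃ N : ℕ, 0 < N ∧ T / N ≤ 1 ∧ L * (T / N) ≤ 1 / 2 ∧ T * (C * √(T / N)) ≤ δ := by
  have h : Tendsto (fun N : ℕ => T / (N : ℝ)) atTop (𝓝 0) := tendsto_const_div_atTop_nhds_zero_nat T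
  have h2 : Tendsto (fun N : ℕ => T * (C * √(T / N))) atTop (𝓝 0) := by
    simpa using ((h.sqrt.const_mul C).const_mul T)
  have h3 : Tendsto (fun N : ℕ => L * (T / N)) atTop (𝓝 0) := by simpa using h.const_mul L
  obtain ⟨N, a, b, c, d⟩ := ((eventually_gt_atTop 0).and ((h.eventually_le_const one_pos).and
    ((h3.eventually_le_const (by norm_num : (0:ℝ) < 1 / 2)).and
      (h2.eventually_le_const hδ)))).exists
  exact ⟨N, a, b, c, d⟩

lemma stepC_nonneg {X κ : Type*} [Fintype X] [Fintype κ] (φ : X → κ → ℝ) :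
    0 ≤ Local.stepC φ :=
  add_nonneg (mul_nonneg (by norm_num) (integral_nonneg fun g => (exp_pos _).le))
    (mul_nonneg (by norm_num) (mul_nonneg (sq_nonneg _) (exp_pos _).le))

variable {n : ℕ}

/-- The edge on a narrower box. -/
lemma tapEdge_mono {β κ η η' gmax : ℝ} {J : Fin n → Fin n → ℝ} {y γ : Fin n → ℝ}
    (hle : η' ≤ η) (h : TapEdge β κ η gmax J y γ) : TapEdge β κ η' gmax J y γ := by
  refine ⟨h.1, fun w a hw hcard => h.2 w a hw (le_trans ?_ (hcard.trans
    (mul_le_mul_of_nonneg_right hle (Nat.cast_nonneg _))))⟩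
  refine Nat.cast_le.2 (Set.ncard_le_ncard (fun i hi => ?_) (Set.toFinite _))
  simp only [Set.mem_ofPred_eq] at hi ⊢
  linarith

lemma badMean_le_badProb {β κ η η' gmax ρ ε u : ℝ} {K : ℕ} {J : Fin n → Fin n → ℝ}
    (hu : 0 ≤ u) (hη : 0 < η') (hg : 1 + η' ≤ gmax) (hle : η' ≤ η) (x : Fin n → Bool) :
    badMean β κ η' gmax ρ K ε u J x ≤ badProb β κ η gmax ρ K ε u J x := by
  rw [badMean, plantedMean_indicator hu x (measurableSet_badSet hη hg)]
  refine measureReal_mono fun ξ hξ hgood => hξ ?_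
  obtain ⟨γ, h1, h2⟩ := hgood
  exact ⟨γ, tapEdge_mono hle h1, h2⟩

lemma badMean_mem {β κ η gmax ρ ε u : ℝ} {K : ℕ} {J : Fin n → Fin n → ℝ}
    (hη : 0 < η) (hg : 1 + η ≤ gmax) (x : Fin n → Bool) :
    badMean β κ η gmax ρ K ε u J x ∈ Set.Icc (0:ℝ) 1 :=
  plantedMean_mem (measurable_badInd hη hg) (fun _ => badInd_mem _) x

lemma StableAt.mono {β κ η gmax ρ C C' : ℝ} {K : ℕ} {g : Fin n × Fin n → ℝ}
    (h : StableAt β κ η gmax ρ K C (skCoupling β g)) (hle : C ≤ C') :
    StableAt β κ η gmax ρ K C' (skCoupling β g) := by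
  intro y γ F hF hγ
  refine (h y γ F hF hγ).trans (add_le_add (mul_le_mul_of_nonneg_right hle (add_nonneg
    (div_nonneg (dirichlet_nonneg' (skCoupling_symm β g) (skCoupling_self β g) _)
      (mean_pos (IsWeight.gibbs _ _) hF).le) zero_le_one))
    (mul_le_mul_of_nonneg_right (mul_le_mul_of_nonneg_right hle (Nat.cast_nonneg n))
      (div_nonneg (sum_nonneg fun x _ => mul_nonneg (gibbs_pos x).le
        (mul_nonneg (hF x).le (farInd_nonneg _ _ x))) (mean_pos (IsWeight.gibbs _ _) hF).le)))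

/-- Stability and the fields, with the parameters matched. -/
theorem setup {β T : ℝ} (hFi : FieldsStatement β) (hS : StabilityStatement β) (hT : 0 < T) :
    ∃ κ η gmax ρ : ℝ, ∃ K : ℕ, ∃ C c : ℝ, 0 < η ∧ 1 + η ≤ gmax ∧ 0 < ρ ∧ 1 ≤ K ∧ 0 ≤ C ∧
      0 < c ∧
      Tendsto (fun n : ℕ => Measure.pi (fun _ : Fin n × Fin n => gaussianReal 0 1)
        {g | StableAt β κ η gmax ρ K C (skCoupling β g)}) atTop (𝓝 1) ∧
      ∀ᶠ n : ℕ in atTop, ∀ u ∈ Set.Icc 0 T,
        Measure.pi (fun _ : Fin n × Fin n => gaussianReal 0 1)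
          {g | exp (-(c * n)) < mean (p0 (skCoupling β g))
            (badMean β κ η gmax (ρ / 8) K (exp (-(c * n))) u (skCoupling β g))}
        ≤ ENNReal.ofReal (exp (-(c * n))) := by
  obtain ⟨G, hS⟩ := hS
  obtain ⟨κ, hκ, η, hη, gmax, hg, hFi⟩ :=
    hFi T hT (max G 2) (lt_max_of_lt_right two_pos)
  set η' := min η 1
  have hη' : 0 < η' := lt_min hη one_pos
  have hg2 : 2 ≤ gmax := (le_max_right G 2).trans hg
  have hg' : 1 + η' ≤ gmax := by linarith [min_le_right η 1]
  obtain ⟨ρ, hρ, hS⟩ := hS κ hκ η' hη' gmax ((le_max_left G 2).trans hg)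
  obtain ⟨K₁, hS⟩ := hS ρ hρ le_rfl
  obtain ⟨K₂, hFi⟩ := hFi (ρ / 8) (by positivity)
  set K := max (max K₁ K₂) 1
  obtain ⟨C, hS⟩ := hS K ((le_max_left _ _).trans (le_max_left _ _))
  obtain ⟨c, hc, hFi⟩ := hFi K ((le_max_right _ _).trans (le_max_left _ _))
  refine ⟨κ, η', gmax, ρ, K, max C 0, c, hη', hg', hρ, le_max_right _ _, le_max_right _ _, hc,
    ?_, hFi.mono fun n hn u hu => le_trans (measure_mono fun g hgb => ?_) (hn u hu)⟩
  · exact tendsto_of_tendsto_of_tendsto_of_le_of_le hS tendsto_const_nhds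
      (fun n => measure_mono fun g hg1 =>
        StableAt.mono (C := C) (fun y γ F hF hγ => hg1 y γ F hF hγ) (le_max_left _ _))
      fun n => prob_le_one
  · simp only [Set.mem_ofPred_eq] at hgb ⊢
    exact hgb.trans_le
      (sum_le_sum fun x _ => mul_le_mul_of_nonneg_left
        (badMean_le_badProb hu.1 hη' hg' (min_le_left _ _) x) (gibbs_pos x).le)

/-- More than a fraction `θ` of the grid has a large mean of bad fields. -/
def manyBad (m : ℕ → (Fin n × Fin n → ℝ) → ℝ) (p θ : ℝ) (N : ℕ) : Set (Fin n × Fin n → ℝ) :=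
  {g | θ * N < ∑ k ∈ range N, {g' | p < m k g'}.indicator (fun _ => (1:ℝ)) g}

lemma manyBad_le {c : ℝ} {N : ℕ} (hN : 0 < N) {m : ℕ → (Fin n × Fin n → ℝ) → ℝ}
    (h : ∀ k < N, Measure.pi (fun _ : Fin n × Fin n => gaussianReal 0 1)
      {g | exp (-(c * n)) < m k g} ≤ ENNReal.ofReal (exp (-(c * n)))) :
    Measure.pi (fun _ : Fin n × Fin n => gaussianReal 0 1)
      (manyBad m (exp (-(c * n))) (exp (-(c / 2 * n))) N)
      ≤ ENNReal.ofReal (exp (-(c / 2 * n))) := by
  refine (measure_many_le _ hN (exp_pos _) h).trans (ENNReal.ofReal_le_ofReal (le_of_eq ?_))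
  rw [← exp_sub]
  ring_nf

end Vale.Agent.P150.Beta1.PassTwo
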